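import Vale.Agent.P284.H885.D.Loc7

/-!
# P284, project D: the local module, the integral in the linear model
-/

open scoped ContDiff ComplexOrder ComplexConjugate Topology Matrix ENNReal Pointwise
open MeasureTheory Set Filter

noncomputable section

namespace Vale.Agent.P284.H885.D

open Matrix Vale.Agent.P272.K Vale.Agent.P284.H402.A Vale.Agent.P284.H650

variable {q d : ℕ}

theorem DT_pos {n : ℕ} {J : Matrix (Fin q) (Fin n) ℂ} (hJ : Function.Surjective J.mulVec) :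
    0 < DT J := by
  refine H279.a2Stmt.DD_pos 1 Jᵀ Matrix.PosDef.one fun a b hab => ?_
  have h1 : ∀ v, a ⬝ᵥ (J *ᵥ v) = b ⬝ᵥ (J *ᵥ v) := by
    intro v
    rw [Matrix.dotProduct_mulVec, Matrix.dotProduct_mulVec, ← Matrix.mulVec_transpose,
      ← Matrix.mulVec_transpose]
    exact congrArg (fun w => w ⬝ᵥ v) hab
  funext i
  obtain ⟨v, hv⟩ := hJ (Pi.single i 1)
  have h2 := h1 v
  have h3 : J *ᵥ v = Pi.single i 1 := hv
  rw [h3] at h2
  simpa using h2

theorem nq_le_MJ {J : Matrix (Fin q) (Fin (q + d)) ℂ} {B : Matrix (Fin d) (Fin (q + d)) ℂ}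
    (hB : B * Bᴴ = 1) (hJB : J * Bᴴ = 0) (hJ : Function.Surjective J.mulVec) :
    ∃ C : ℝ, 0 ≤ C ∧ ∀ v, nq v ≤ 2 * nq (B *ᵥ v) + C * ‖J *ᵥ v‖ ^ 2 := by
  have hdet : (MJ J B).det ≠ 0 := by
    intro h
    have h1 := det_MJ hB hJB
    rw [h] at h1
    have h2 := DT_pos hJ
    rw [← h1] at h2
    simp at h2
  let T : (Fin (q + d) → ℂ) →L[ℂ] (Fin (q + d) → ℂ) :=
    LinearMap.toContinuousLinearMap (MJ J B)⁻¹.mulVecLin
  refine ⟨2 * ((q + d : ℕ) * ‖T‖ ^ 2), by positivity, fun v => ?_⟩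
  set v' := v - Bᴴ *ᵥ (B *ᵥ v) with hv'
  have e1 : J *ᵥ v' = J *ᵥ v := by
    rw [hv', Matrix.mulVec_sub, Matrix.mulVec_mulVec, hJB, Matrix.zero_mulVec, sub_zero]
  have e2 : B *ᵥ v' = 0 := by
    rw [hv', Matrix.mulVec_sub, Matrix.mulVec_mulVec, hB, Matrix.one_mulVec, sub_self]
  have e3 : v' = T (MJ J B *ᵥ v') := by
    change v' = (MJ J B)⁻¹ *ᵥ (MJ J B *ᵥ v')
    rw [Matrix.mulVec_mulVec, Matrix.nonsing_inv_mul _ (isUnit_iff_ne_zero.2 hdet),
      Matrix.one_mulVec]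
  have e4 : ‖MJ J B *ᵥ v'‖ ≤ ‖J *ᵥ v‖ := by
    rw [MJ_mulVec, e1, e2, pi_norm_le_iff_of_nonneg (norm_nonneg _)]
    intro i
    obtain ⟨s, rfl⟩ := finSumFinEquiv.surjective i
    rw [Equiv.symm_apply_apply]
    rcases s with a | a
    · exact norm_le_pi_norm (J *ᵥ v) a
    · simp
  have e5 : ‖v'‖ ≤ ‖T‖ * ‖J *ᵥ v‖ := by
    calc ‖v'‖ = ‖T (MJ J B *ᵥ v')‖ := by rw [← e3]
      _ ≤ ‖T‖ * ‖MJ J B *ᵥ v'‖ := T.le_opNorm _
      _ ≤ ‖T‖ * ‖J *ᵥ v‖ := mul_le_mul_of_nonneg_left e4 (norm_nonneg _)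
  have e6 : v = Bᴴ *ᵥ (B *ᵥ v) + v' := by rw [hv']; abel
  calc nq v = nq (Bᴴ *ᵥ (B *ᵥ v) + v') := by rw [← e6]
    _ ≤ 2 * nq (Bᴴ *ᵥ (B *ᵥ v)) + 2 * nq v' := nq_add_le _ _
    _ ≤ 2 * nq (B *ᵥ v) + 2 * ((q + d : ℕ) * ‖v'‖ ^ 2) := by
        rw [nq_BH hB]
        have := nq_le v'
        linarith
    _ ≤ 2 * nq (B *ᵥ v) + 2 * ((q + d : ℕ) * (‖T‖ * ‖J *ᵥ v‖) ^ 2) := by
        have h1 : ‖v'‖ ^ 2 ≤ (‖T‖ * ‖J *ᵥ v‖) ^ 2 := pow_le_pow_left₀ (norm_nonneg _) e5 2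
        have h2 : (0 : ℝ) ≤ ((q + d : ℕ) : ℝ) := by positivity
        have := mul_le_mul_of_nonneg_left h1 h2
        linarith
    _ = _ := by ring

theorem nq_cont {m : ℕ} : Continuous (nq (m := m)) := by
  unfold nq
  fun_prop

/-- the volume of a Euclidean ball -/
theorem vol_nq {A : ℝ} (hA : 0 < A) : volume {u : Fin d → ℂ | nq u ≤ A} =
    ENNReal.ofReal (A ^ d) * volume {u : Fin d → ℂ | nq u ≤ 1} := by
  have hs : 0 < Real.sqrt A := Real.sqrt_pos.2 hA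
  have h1 : {u : Fin d → ℂ | nq u ≤ A} = Real.sqrt A • {u : Fin d → ℂ | nq u ≤ 1} := by
    ext u
    rw [mem_smul_set_iff_inv_smul_mem₀ hs.ne']
    simp only [mem_setOf_eq]
    have : nq ((Real.sqrt A)⁻¹ • u) = A⁻¹ * nq u := by
      unfold nq
      rw [Finset.mul_sum]
      refine Finset.sum_congr rfl fun j _ => ?_
      rw [Pi.smul_apply, norm_smul, mul_pow, Real.norm_of_nonneg (by positivity), inv_pow,
        Real.sq_sqrt hA.le]
    rw [this, inv_mul_le_iff₀ hA, mul_one]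
  rw [h1, Measure.addHaar_smul]
  congr 2
  have h2 : Module.finrank ℝ (Fin d → ℂ) = 2 * d := by
    rw [Module.finrank_pi_fintype]
    simp [Complex.finrank_real_complex, mul_comm]
  rw [h2, pow_mul, Real.sq_sqrt hA.le, abs_of_nonneg (by positivity)]

theorem vol_one_pos : 0 < volume {u : Fin d → ℂ | nq u ≤ 1} := by
  have h1 : IsOpen {u : Fin d → ℂ | nq u < 1} := isOpen_lt nq_cont continuous_const
  have h2 : (0 : Fin d → ℂ) ∈ {u : Fin d → ℂ | nq u < 1} := by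
    simp [nq]
  refine lt_of_lt_of_le (h1.measure_pos volume ⟨0, h2⟩) (measure_mono fun u hu => ?_)
  have h3 : nq u < 1 := hu
  exact h3.le

theorem vol_one_fin : volume {u : Fin d → ℂ | nq u ≤ 1} < ⊤ := by
  refine lt_of_le_of_lt (measure_mono fun u hu => ?_)
    (measure_closedBall_lt_top (x := (0 : Fin d → ℂ)) (r := 1))
  rw [Metric.mem_closedBall, dist_zero_right]
  have h1 : nq u ≤ 1 := hu
  have h2 := norm_sq_le_nq u
  nlinarith [norm_nonneg u]

theorem mk_mp' : MeasurePreserving (fun p : (Fin q → ℂ) × (Fin d → ℂ) =>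
    (fun i => Sum.elim p.1 p.2 (finSumFinEquiv.symm i) : Fin (q + d) → ℂ)) volume volume := by
  have h1 := volume_measurePreserving_sumPiEquivProdPi_symm (fun _ : Fin q ⊕ Fin d => ℂ)
  have h2 := volume_measurePreserving_piCongrLeft (fun _ : Fin (q + d) => ℂ)
    (finSumFinEquiv (m := q) (n := d))
  have h3 := h2.comp h1
  refine (congrArg (fun φ => MeasurePreserving φ volume volume) ?_).mp h3
  funext p i
  obtain ⟨b, rfl⟩ := finSumFinEquiv.surjective i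
  rw [Function.comp_apply, MeasurableEquiv.coe_piCongrLeft, Equiv.piCongrLeft_apply_apply]
  rcases b with k | j
  · simp [MeasurableEquiv.coe_sumPiEquivProdPi_symm]
  · simp [MeasurableEquiv.coe_sumPiEquivProdPi_symm]

/-- change of variables for an invertible matrix -/
theorem lint_mulVec {m : ℕ} {M : Matrix (Fin m) (Fin m) ℂ} (hM : M.det ≠ 0)
    (g : (Fin m → ℂ) → ℝ≥0∞) :
    ∫⁻ y, g y = ∫⁻ v, ENNReal.ofReal (‖M.det‖ ^ 2) * g (M *ᵥ v) := by
  let Φ : (Fin m → ℂ) →L[ℂ] (Fin m → ℂ) := LinearMap.toContinuousLinearMap M.mulVecLin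
  have hΦ : ∀ v, Φ v = M *ᵥ v := fun v => rfl
  have hinj : Function.Injective Φ := by
    intro a b hab
    have h1 : M⁻¹ *ᵥ (M *ᵥ a) = M⁻¹ *ᵥ (M *ᵥ b) := by rw [← hΦ, ← hΦ, hab]
    simpa [Matrix.mulVec_mulVec, Matrix.nonsing_inv_mul _ (isUnit_iff_ne_zero.2 hM)] using h1
  have hsurj : Function.Surjective Φ := by
    intro y
    refine ⟨M⁻¹ *ᵥ y, ?_⟩
    rw [hΦ, Matrix.mulVec_mulVec, Matrix.mul_nonsing_inv _ (isUnit_iff_ne_zero.2 hM),
      Matrix.one_mulVec]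
  have h := H451.lint_image (n := m) MeasurableSet.univ (f := Φ)
    (fun z _ => Φ.differentiableAt) hinj.injOn g
  rw [image_univ, hsurj.range_eq, Measure.restrict_univ] at h
  rw [h]
  refine lintegral_congr fun v => ?_
  rw [Φ.fderiv]
  have h2 : Φ.det = M.det := by
    change LinearMap.det (M.mulVecLin) = M.det
    rw [← Matrix.toLin'_apply', LinearMap.det_toLin']
  rw [h2, ← ofReal_norm, ENNReal.ofReal_pow (norm_nonneg _)]
  rfl

/-- **The integral in the linear model.** -/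
theorem lin_low (q d : ℕ) : ∃ c : ℝ, 0 < c ∧ ∀ J : Matrix (Fin q) (Fin (q + d)) ℂ,
    Function.Surjective J.mulVec → ∀ κ : (Fin q → ℂ) → ℝ, Continuous κ → (∀ Z, 0 ≤ κ Z) →
    HasCompactSupport κ → ∫ Z, κ Z = 1 → ∃ A₀ : ℝ, 0 < A₀ ∧ ∀ A, A₀ ≤ A →
      ENNReal.ofReal c ≤
        ∫⁻ v, ENNReal.ofReal (κ (J *ᵥ v) * DT J * (A / (nq v + A) ^ (d + 1))) := by
  set V := volume {u : Fin d → ℂ | nq u ≤ 1} with hV
  have hVp : 0 < V.toReal := ENNReal.toReal_pos vol_one_pos.ne' vol_one_fin.ne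
  refine ⟨(4 ^ (d + 1))⁻¹ * V.toReal, by positivity, ?_⟩
  intro J hJ κ hκ hκ0 hκc hκ1
  obtain ⟨B, hB, hJB⟩ := exists_B J hJ
  obtain ⟨C, hC0, hC⟩ := nq_le_MJ hB hJB hJ
  have hdet : (MJ J B).det ≠ 0 := by
    intro h
    have h1 := det_MJ hB hJB
    rw [h] at h1
    have h2 := DT_pos hJ
    rw [← h1] at h2
    simp at h2
  obtain ⟨R, hR0, hR⟩ : ∃ R : ℝ, 0 ≤ R ∧ ∀ Z, κ Z ≠ 0 → ‖Z‖ ≤ R := by
    obtain ⟨R, hR⟩ := hκc.isCompact.isBounded.subset_closedBall 0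
    refine ⟨max R 0, le_max_right _ _, fun Z hZ => ?_⟩
    have := hR (subset_tsupport κ hZ)
    rw [Metric.mem_closedBall, dist_zero_right] at this
    exact this.trans (le_max_left _ _)
  refine ⟨C * R ^ 2 + 1, by positivity, fun A hA => ?_⟩
  have hA0 : 0 < A := by have : 0 ≤ C * R ^ 2 := by positivity
                         linarith
  set S : Set (Fin d → ℂ) := {u | nq u ≤ A} with hS
  have hSm : MeasurableSet S := measurableSet_le nq_cont.measurable measurable_const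
  set w : ℝ := (4 ^ (d + 1))⁻¹ * (A ^ d)⁻¹ with hw
  set W : (Fin d → ℂ) → ℝ≥0∞ := S.indicator fun _ => ENNReal.ofReal w with hW
  set g : (Fin (q + d) → ℂ) → ℝ≥0∞ := fun y =>
    ENNReal.ofReal (κ fun a => y (finSumFinEquiv (Sum.inl a))) *
      W fun b => y (finSumFinEquiv (Sum.inr b)) with hg
  have hκm : Measurable fun Z : Fin q → ℂ => ENNReal.ofReal (κ Z) :=
    ENNReal.measurable_ofReal.comp hκ.measurable
  have hWm : Measurable W := measurable_const.indicator hSm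
  have hgm : Measurable g := by
    refine Measurable.mul (hκm.comp (by fun_prop)) (hWm.comp (by fun_prop))
  -- the integral of `g`
  have i1 : ∫⁻ y, g y = ENNReal.ofReal ((4 ^ (d + 1))⁻¹ * V.toReal) := by
    rw [← (mk_mp' (q := q) (d := d)).lintegral_comp hgm]
    have h2 : (fun p : (Fin q → ℂ) × (Fin d → ℂ) =>
        g (fun i => Sum.elim p.1 p.2 (finSumFinEquiv.symm i))) =
        fun p => ENNReal.ofReal (κ p.1) * W p.2 := by
      funext p
      simp only [hg, Equiv.symm_apply_apply, Sum.elim_inl, Sum.elim_inr]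
    rw [h2, Measure.volume_eq_prod,
      lintegral_prod_mul hκm.aemeasurable hWm.aemeasurable]
    have h3 : ∫⁻ Z : Fin q → ℂ, ENNReal.ofReal (κ Z) = 1 := by
      rw [← ofReal_integral_eq_lintegral_ofReal (hκ.integrable_of_hasCompactSupport hκc)
        (Eventually.of_forall hκ0), hκ1, ENNReal.ofReal_one]
    have h4 : ∫⁻ u, W u = ENNReal.ofReal w * volume S := by
      rw [hW, lintegral_indicator hSm, setLIntegral_const]
    rw [h3, h4, one_mul, hS, vol_nq hA0, ← hV, ← mul_assoc,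
      ← ENNReal.ofReal_mul (by positivity), hw]
    have h5 : (4 ^ (d + 1) : ℝ)⁻¹ * (A ^ d)⁻¹ * A ^ d = (4 ^ (d + 1))⁻¹ := by
      field_simp
    rw [h5, ENNReal.ofReal_mul (by positivity), ENNReal.ofReal_toReal vol_one_fin.ne]
  rw [← i1, lint_mulVec hdet g]
  refine lintegral_mono fun v => ?_
  have hgv : g (MJ J B *ᵥ v) = ENNReal.ofReal (κ (J *ᵥ v)) * W (B *ᵥ v) := by
    simp only [hg, MJ_mulVec, Equiv.symm_apply_apply, Sum.elim_inl, Sum.elim_inr]
  rw [hgv, det_MJ hB hJB]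
  by_cases h1 : κ (J *ᵥ v) = 0
  · rw [h1]; simp
  by_cases h2 : B *ᵥ v ∈ S
  · rw [hW, indicator_of_mem h2, ← ENNReal.ofReal_mul (hκ0 _), ← ENNReal.ofReal_mul (DT_nonneg J)]
    refine ENNReal.ofReal_le_ofReal ?_
    have h3 := hR _ h1
    have h4 : nq (B *ᵥ v) ≤ A := h2
    have h5 : C * ‖J *ᵥ v‖ ^ 2 ≤ C * R ^ 2 :=
      mul_le_mul_of_nonneg_left (pow_le_pow_left₀ (norm_nonneg _) h3 2) hC0
    have h6 : nq v + A ≤ 4 * A := by
      have := hC v
      linarith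
    have h7 := nq_nonneg v
    have h8 : w ≤ A / (nq v + A) ^ (d + 1) := by
      rw [le_div_iff₀ (by positivity)]
      calc w * (nq v + A) ^ (d + 1) ≤ w * (4 * A) ^ (d + 1) :=
            mul_le_mul_of_nonneg_left (pow_le_pow_left₀ (by linarith) h6 _) (by positivity)
        _ = A := by
            rw [hw, mul_pow, pow_succ A d]
            field_simp
    calc DT J * (κ (J *ᵥ v) * w) = κ (J *ᵥ v) * DT J * w := by ring
      _ ≤ _ := mul_le_mul_of_nonneg_left h8 (mul_nonneg (hκ0 _) (DT_nonneg J))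
  · rw [hW, indicator_of_notMem h2, mul_zero, mul_zero]
    exact bot_le

end Vale.Agent.P284.H885.D
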