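import Vale.Agent.P284.H885.D.Loc6
import Vale.Agent.P284.H885.D.Loc8

/-!
# P284, project D: the local module (E6)

`c r^{2d} f(y') ≤ ∫ κ_ε(G - G(y')) f dG ∧ dḠ ∧ β^d` for all small `ε`.
-/

open scoped ContDiff ComplexOrder ComplexConjugate Topology Matrix
open MeasureTheory Set Filter Metric

noncomputable section

namespace Vale.Agent.P284.H885.D

open Matrix Vale.Agent.P272.K Vale.Agent.P284.H650 Vale.Agent.P284.H66.S7 Vale.Agent.P284.H402.A

theorem DT_eq' {n q : ℕ} (J : Matrix (Fin q) (Fin n) ℂ) : DT J = (J * Jᴴ).det.re := by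
  rw [DT_eq, ← Matrix.det_transpose (J * Jᴴ), Matrix.transpose_mul]
  rfl

theorem holV_of_an {n q : ℕ} {G : Cm n → Cm q} {z : Cm n} (h : AnalyticAt ℂ G z) : HolV G z := by
  intro b
  filter_upwards [h.eventually_analyticAt] with y hy
  exact differentiableAt_pi.1 hy.differentiableAt b

theorem nsd_lt_mem {n : ℕ} {y' z : Cm n} {r : ℝ} (hr : 0 < r) (h : nsd y' z ≤ r ^ 2) :
    z ∈ closedBall y' r := by
  rw [mem_closedBall, dist_eq_norm]
  have h1 : ‖z - y'‖ ^ 2 ≤ nq (z - y') := norm_sq_le_nq _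
  have h2 : nq (z - y') = nsd y' z := rfl
  rw [h2] at h1
  exact abs_le_of_sq_le_sq' (h1.trans h) hr.le |>.2

theorem DT_cont {n q : ℕ} {G : Cm n → Cm q} {z : Cm n} (h : HolV G z) :
    ContinuousAt (fun y => DT (JF G y)) z := by
  simp only [DT_eq]
  refine Complex.continuous_re.continuousAt.comp ?_
  have h1 : ∀ b l, ContinuousAt (fun y => JF G y b l) z := fun b l => (h.J b l).smooth.continuousAt
  have h2 : ContinuousAt (fun y => (JF G y).map (starRingEnd ℂ) * (JF G y).transpose) z := by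
    refine continuousAt_pi.2 fun i => continuousAt_pi.2 fun j => ?_
    simp only [Matrix.mul_apply, Matrix.map_apply, Matrix.transpose_apply]
    exact tendsto_finsetSum _ fun l _ =>
      ((Complex.continuous_conj.continuousAt.comp (h1 i l)).mul (h1 j l))
  exact (Continuous.matrix_det continuous_id).continuousAt.comp h2

/-- the kernel at scale `ε` -/
def kap {q : ℕ} (κ : Cm q → ℝ) (Z₀ : Cm q) (ε : ℝ) (Z : Cm q) : ℝ :=
  ε⁻¹ ^ (2 * q) * κ (ε⁻¹ • (Z - Z₀))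

theorem kap_smooth {q : ℕ} {κ : Cm q → ℝ} (hκ : ContDiff ℝ ∞ κ) (Z₀ : Cm q) (ε : ℝ) :
    ContDiff ℝ ∞ (kap κ Z₀ ε) :=
  contDiff_const.mul (hκ.comp ((contDiff_id.sub contDiff_const).const_smul ε⁻¹))

theorem kap_nonneg {q : ℕ} {κ : Cm q → ℝ} (hκ : ∀ Z, 0 ≤ κ Z) (Z₀ : Cm q) {ε : ℝ} (hε : 0 < ε)
    (Z : Cm q) : 0 ≤ kap κ Z₀ ε Z := mul_nonneg (by positivity) (hκ _)

/-- the hypotheses of the local lemma -/
structure LH {n q : ℕ} (κ : Cm q → ℝ) (G : Cm n → Cm q) (f : Cm n → ℝ) (N : Set (Cm n))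
    (y' : Cm n) (r : ℝ) (ε₀ : ℝ) : Prop where
  κs : ContDiff ℝ ∞ κ
  κ0 : ∀ Z, 0 ≤ κ Z
  r0 : 0 < r
  No : IsOpen N
  mem : y' ∈ N
  good : ∀ y ∈ N, y ∈ closedBall y' r → AnalyticAt ℂ G y ∧ ContDiffAt ℝ ∞ f y ∧ 0 ≤ f y ∧
    ∀ ξ : Cm n, fderiv ℂ G y ξ = 0 → 0 ≤ (∑ j, ∑ l, cHess f y j l * ξ j * conj (ξ l)).re
  off : ∀ ε, 0 < ε → ε < ε₀ → ∀ y ∈ closedBall y' r, y ∉ N →
    ∀ᶠ ζ in 𝓝 y, κ (ε⁻¹ • (G ζ - G y')) * f ζ = 0

section
variable {n q : ℕ} {κ : Cm q → ℝ} {G : Cm n → Cm q} {f : Cm n → ℝ} {N : Set (Cm n)} {y' : Cm n}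
  {r ε₀ : ℝ}

/-- the integrand -/
def FF (κ : Cm q → ℝ) (G : Cm n → Cm q) (f : Cm n → ℝ) (y' : Cm n) (ε : ℝ) (y : Cm n) : ℝ :=
  f y * kap κ (G y') ε (G y) * DT (JF G y)

theorem LH.off' (h : LH κ G f N y' r ε₀) {ε : ℝ} (h0 : 0 < ε) (h1 : ε < ε₀) {y : Cm n}
    (hy : y ∈ closedBall y' r) (hyN : y ∉ N) :
    (fun ζ => f ζ * kap κ (G y') ε (G ζ)) =ᶠ[𝓝 y] fun _ => 0 := by
  filter_upwards [h.off ε h0 h1 y hy hyN] with ζ hζ
  rw [kap]
  linear_combination (ε⁻¹ ^ (2 * q)) * hζ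

theorem LH.cont (h : LH κ G f N y' r ε₀) {ε : ℝ} (h0 : 0 < ε) (h1 : ε < ε₀) {y : Cm n}
    (hy : y ∈ closedBall y' r) : ContinuousAt (FF κ G f y' ε) y := by
  by_cases hyN : y ∈ N
  · obtain ⟨g1, g2, -, -⟩ := h.good y hyN hy
    exact (g2.continuousAt.mul ((kap_smooth h.κs _ ε).continuous.continuousAt.comp
      g1.continuousAt)).mul (DT_cont (holV_of_an g1))
  · have : FF κ G f y' ε =ᶠ[𝓝 y] fun _ => 0 := by
      filter_upwards [h.off' h0 h1 hy hyN] with ζ hζ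
      rw [FF, hζ, zero_mul]
    exact continuousAt_const.congr this.symm

theorem LH.nonneg (h : LH κ G f N y' r ε₀) {ε : ℝ} (h0 : 0 < ε) (h1 : ε < ε₀) {y : Cm n}
    (hy : y ∈ closedBall y' r) : 0 ≤ FF κ G f y' ε y := by
  by_cases hyN : y ∈ N
  · exact mul_nonneg (mul_nonneg (h.good y hyN hy).2.2.1 (kap_nonneg h.κ0 _ h0 _)) (DT_nonneg _)
  · have := (h.off' h0 h1 hy hyN).self_of_nhds
    simp only at this
    rw [FF, this, zero_mul]

theorem LH.int (h : LH κ G f N y' r ε₀) {ε : ℝ} (h0 : 0 < ε) (h1 : ε < ε₀) :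
    IntegrableOn (FF κ G f y' ε) (closedBall y' r) :=
  ContinuousOn.integrableOn_compact (isCompact_closedBall _ _) fun y hy =>
    (h.cont h0 h1 hy).continuousWithinAt

/-- the open set -/
def UU (N : Set (Cm n)) (y' : Cm n) (r : ℝ) : Set (Cm n) := N ∩ {z | nsd y' z < r ^ 2}

theorem UU_open (hN : IsOpen N) (y' : Cm n) (r : ℝ) : IsOpen (UU N y' r) :=
  hN.inter (isOpen_lt (nsd_smooth y').continuous continuous_const)

theorem UU_sub (hr : 0 < r) : UU N y' r ⊆ closedBall y' r := fun _ hz =>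
  nsd_lt_mem hr (le_of_lt hz.2)

theorem nsd_self (y' : Cm n) : nsd y' y' = 0 := by simp [nsd]

theorem LH.memU (h : LH κ G f N y' r ε₀) : y' ∈ UU N y' r := by
  have := h.r0
  refine ⟨h.mem, ?_⟩
  rw [Set.mem_ofPred_eq, nsd_self]
  positivity

/-- the mean value inequality for the integrand -/
theorem LH.mv {d : ℕ} {C : ℝ} (h : LH κ G f N y' r ε₀) (hC : ∀ (n q : ℕ), q + d = n →
    ∀ (U : Set (Cm n)) (G : Cm n → Cm q), IsOpen U → (∀ z ∈ U, HolV G z) →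
    ∀ (κ : Cm q → ℝ), ContDiff ℝ ∞ κ → (∀ Z, 0 ≤ κ Z) →
    ∀ (f : Cm n → ℝ), (∀ z ∈ U, ContDiffAt ℝ ∞ f z ∧ 0 ≤ f z ∧
      ∀ ξ : Cm n, fderiv ℂ G z ξ = 0 → 0 ≤ (∑ j, ∑ l, cHess f z j l * ξ j * conj (ξ l)).re) →
    ∀ (y' : Cm n) (ρ η : ℝ), 0 < ρ → 0 < η → ∀ (K : Set (Cm n)), IsCompact K → K ⊆ U →
    (∀ z ∈ U, z ∉ K → nsd y' z ≤ ρ / 2 → (fun y => f y * κ (G y)) =ᶠ[𝓝 z] fun _ => 0) →
    IntegrableOn (fun z => f z * κ (G z) * DT (JF G z)) U →
    ∫ z in U, f z * κ (G z) * DT (JF G z) * kk ρ η d y' z ≤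
      C / ρ ^ d * ∫ z in U, f z * κ (G z) * DT (JF G z)) (hn : q + d = n) {ε η : ℝ}
    (h0 : 0 < ε) (h1 : ε < ε₀) (hη : 0 < η) :
    ∫ z in UU N y' r, FF κ G f y' ε z * kk (r ^ 2) η d y' z ≤
      C / (r ^ 2) ^ d * ∫ z in UU N y' r, FF κ G f y' ε z := by
  have hr := h.r0
  have hUo := UU_open h.No y' r
  have hUs : UU N y' r ⊆ closedBall y' r := UU_sub hr
  set Zs : Set (Cm n) := {z | ∀ᶠ ζ in 𝓝 z, f ζ * kap κ (G y') ε (G ζ) = 0} with hZs
  have hZo : IsOpen Zs := isOpen_setOf_eventually_nhds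
  have hKc : IsCompact ({z | nsd y' z ≤ r ^ 2 / 2} ∩ Zsᶜ) := by
    refine IsCompact.of_isClosed_subset (isCompact_closedBall y' r) ?_ fun z hz => ?_
    · exact (isClosed_le (nsd_smooth y').continuous continuous_const).inter hZo.isClosed_compl
    · have h2 : nsd y' z ≤ r ^ 2 / 2 := hz.1
      exact nsd_lt_mem hr (by nlinarith [sq_nonneg r])
  refine hC n q hn (UU N y' r) G hUo
    (fun z hz => holV_of_an (h.good z hz.1 (hUs hz)).1) (kap κ (G y') ε) (kap_smooth h.κs _ ε)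
    (kap_nonneg h.κ0 _ h0) f (fun z hz => (h.good z hz.1 (hUs hz)).2) y' (r ^ 2) η
    (by positivity) hη _ hKc (fun z hz => ?_) (fun z hz hzK h2 => ?_)
    ((h.int h0 h1).mono_set hUs)
  · have h2 : nsd y' z ≤ r ^ 2 / 2 := hz.1
    have h3 : z ∈ closedBall y' r := nsd_lt_mem hr (by nlinarith [sq_nonneg r])
    refine ⟨?_, ?_⟩
    · by_contra hzN
      exact hz.2 (h.off' h0 h1 h3 hzN)
    · rw [Set.mem_ofPred_eq]
      have : 0 < r ^ 2 := by positivity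
      linarith
  · by_contra h3
    exact hzK ⟨h2, h3⟩

/-! ### The limit -/

/-- the integrand with the kernel, extended by zero -/
def PP (κ : Cm q → ℝ) (G : Cm n → Cm q) (f : Cm n → ℝ) (N : Set (Cm n)) (y' : Cm n) (r : ℝ)
    (d : ℕ) (A ε : ℝ) : Cm n → ℝ :=
  (UU N y' r).indicator fun z => FF κ G f y' ε z * kk (r ^ 2) (A * ε ^ 2) d y' z

theorem LH.meas (h : LH κ G f N y' r ε₀) {d : ℕ} {A ε : ℝ} (hA : 0 < A) (h0 : 0 < ε)
    (h1 : ε < ε₀) : Measurable (PP κ G f N y' r d A ε) := by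
  classical
  have hc : ContinuousOn (fun z => FF κ G f y' ε z * kk (r ^ 2) (A * ε ^ 2) d y' z)
      (UU N y' r) := fun z hz => ((h.cont h0 h1 (UU_sub h.r0 hz)).mul
    (kk_cont (by positivity) d y').continuousAt).continuousWithinAt
  have := ContinuousOn.measurable_piecewise (g := fun _ => (0 : ℝ)) hc continuousOn_const
    (UU_open h.No y' r).measurableSet
  rw [PP, ← Set.piecewise_eq_indicator]
  exact this

/-- change of scale -/
theorem lint_scale {m : ℕ} (y' : Cm m) {ε : ℝ} (hε : 0 < ε) (g : Cm m → ENNReal) :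
    ∫⁻ y, g y = ∫⁻ v, ENNReal.ofReal (ε ^ (2 * m)) * g (y' + (ε : ℂ) • v) := by
  have hε' : (ε : ℂ) ≠ 0 := by exact_mod_cast hε.ne'
  set φ : Cm m → Cm m := fun v => y' + (ε : ℂ) • v with hφ
  have hd : ∀ v, HasFDerivAt φ ((ε : ℂ) • ContinuousLinearMap.id ℂ (Cm m)) v := fun v =>
    ((hasFDerivAt_id v).const_smul (ε : ℂ)).const_add y'
  have hinj : Function.Injective φ := by
    intro a b hab
    have h1 : (ε : ℂ) • a = (ε : ℂ) • b := add_left_cancel hab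
    exact smul_right_injective _ hε' h1
  have hsurj : Function.Surjective φ := fun y => ⟨(ε : ℂ)⁻¹ • (y - y'), by
    simp only [hφ]
    rw [smul_inv_smul₀ hε']
    abel⟩
  have h := H451.lint_image (n := m) MeasurableSet.univ (f := φ)
    (fun z _ => (hd z).differentiableAt) hinj.injOn g
  rw [image_univ, hsurj.range_eq, Measure.restrict_univ] at h
  rw [h]
  refine lintegral_congr fun v => ?_
  rw [(hd v).fderiv]
  have h2 : ((ε : ℂ) • ContinuousLinearMap.id ℂ (Cm m)).det = (ε : ℂ) ^ m := by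
    change LinearMap.det ((ε : ℂ) • (LinearMap.id : Cm m →ₗ[ℂ] Cm m)) = (ε : ℂ) ^ m
    rw [LinearMap.det_smul, LinearMap.det_id, mul_one, Module.finrank_fin_fun]
  rw [h2, ← ofReal_norm, norm_pow, Complex.norm_real, Real.norm_of_nonneg hε.le,
    ← ENNReal.ofReal_pow (by positivity), ← pow_mul, mul_comm m 2]

theorem nsd_add (y' v : Cm n) (ε : ℝ) : nsd y' (y' + (ε : ℂ) • v) = ε ^ 2 * nq v := by
  rw [nsd, nq, Finset.mul_sum]
  refine Finset.sum_congr rfl fun j _ => ?_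
  rw [Pi.add_apply, add_sub_cancel_left, Pi.smul_apply, norm_smul, mul_pow, Complex.norm_real,
    Real.norm_eq_abs, sq_abs]

theorem tends_pt (y' v : Cm n) :
    Tendsto (fun ε : ℝ => y' + (ε : ℂ) • v) (𝓝[>] 0) (𝓝 y') := by
  have h1 : Continuous fun ε : ℝ => y' + (ε : ℂ) • v := by fun_prop
  have h2 := h1.tendsto 0
  simp only [Complex.ofReal_zero, zero_smul, add_zero] at h2
  exact h2.mono_left nhdsWithin_le_nhds

/-- the pointwise limit -/
theorem LH.lim (h : LH κ G f N y' r ε₀) {d : ℕ} (hn : q + d = n) {A : ℝ} (hA : 0 < A)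
    (v : Cm n) : Tendsto (fun ε : ℝ => ε ^ (2 * n) * PP κ G f N y' r d A ε (y' + (ε : ℂ) • v))
      (𝓝[>] 0) (𝓝 (f y' * (κ (JF G y' *ᵥ v) * DT (JF G y') * (A / (nq v + A) ^ (d + 1))))) := by
  have hr := h.r0
  obtain ⟨g1, g2, -, -⟩ := h.good y' h.mem (mem_closedBall_self hr.le)
  have hH := holV_of_an g1
  have t0 := tends_pt y' v
  have hε : Tendsto (fun ε : ℝ => ε) (𝓝[>] 0) (𝓝 0) := nhdsWithin_le_nhds
  have t1 : Tendsto (fun ε : ℝ => f (y' + (ε : ℂ) • v)) (𝓝[>] 0) (𝓝 (f y')) :=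
    g2.continuousAt.tendsto.comp t0
  have t2 : Tendsto (fun ε : ℝ => κ (ε⁻¹ • (G (y' + (ε : ℂ) • v) - G y'))) (𝓝[>] 0)
      (𝓝 (κ (JF G y' *ᵥ v))) := by
    refine h.κs.continuous.continuousAt.tendsto.comp ?_
    rw [JF_mulVec hH]
    have h3 : HasFDerivAt G ((fderiv ℂ G y').restrictScalars ℝ) y' :=
      (g1.differentiableAt.hasFDerivAt).restrictScalars ℝ
    have h4 := h3.lim v (c := fun ε : ℝ => ε⁻¹) (l := 𝓝[>] 0) (by
      refine tendsto_inv_nhdsGT_zero.congr' ?_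
      filter_upwards [self_mem_nhdsWithin] with ε hε
      rw [Real.norm_of_nonneg (inv_nonneg.2 (le_of_lt hε))])
    refine h4.congr fun ε => ?_
    rw [inv_inv]
    congr 3
  have t3 : Tendsto (fun ε : ℝ => DT (JF G (y' + (ε : ℂ) • v))) (𝓝[>] 0)
      (𝓝 (DT (JF G y'))) := (DT_cont hH).tendsto.comp t0
  have t4 : Tendsto (fun ε : ℝ => chi (r ^ 2) (nsd y' (y' + (ε : ℂ) • v))) (𝓝[>] 0)
      (𝓝 1) := by
    have h5 : Continuous fun z => chi (r ^ 2) (nsd y' z) :=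
      (chi_smooth _).continuous.comp (nsd_smooth y').continuous
    have h6 := (h5.tendsto y').comp t0
    rw [nsd_self, chi_one (by positivity) (by positivity)] at h6
    exact h6
  have t5 := (((t1.mul t2).mul t3).mul t4).mul
    (tendsto_const_nhds (x := A / (nq v + A) ^ (d + 1)) (f := 𝓝[>] (0 : ℝ)))
  have e1 : f y' * κ (JF G y' *ᵥ v) * DT (JF G y') * 1 * (A / (nq v + A) ^ (d + 1)) =
      f y' * (κ (JF G y' *ᵥ v) * DT (JF G y') * (A / (nq v + A) ^ (d + 1))) := by ring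
  rw [e1] at t5
  refine t5.congr' ?_
  have hmem : ∀ᶠ ε : ℝ in 𝓝[>] 0, y' + (ε : ℂ) • v ∈ UU N y' r :=
    t0.eventually ((UU_open h.No y' r).mem_nhds h.memU)
  filter_upwards [hmem, self_mem_nhdsWithin] with ε hm hε0
  have hε0' : (0 : ℝ) < ε := hε0
  rw [PP, indicator_of_mem hm, FF, kap, kk, nsd_add]
  have h7 := nq_nonneg v
  have h8 : ε ^ 2 * nq v + A * ε ^ 2 = ε ^ 2 * (nq v + A) := by ring
  rw [h8, mul_pow]
  have h9 : (nq v + A) ≠ 0 := by positivity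
  have h10 : ε ^ (2 * n) = ε ^ (2 * q) * (ε ^ 2) ^ d := by
    rw [← pow_mul, ← pow_add]
    congr 1
    omega
  rw [h10, pow_succ (ε ^ 2) d, inv_pow]
  field_simp

end

/-- **E6, the local module.** -/
theorem loc (q d : ℕ) : ∃ c : ℝ, 0 < c ∧ ∀ (n : ℕ), q + d = n → ∀ κ : Cm q → ℝ,
    ContDiff ℝ ∞ κ → (∀ Z, 0 ≤ κ Z) → HasCompactSupport κ → ∫ Z, κ Z = 1 →
    ∀ (G : Cm n → Cm q) (f : Cm n → ℝ) (N : Set (Cm n)) (y' : Cm n) (r : ℝ), 0 < r →
    IsOpen N → y' ∈ N →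
    (∀ y ∈ N, y ∈ closedBall y' r → AnalyticAt ℂ G y ∧ ContDiffAt ℝ ∞ f y ∧ 0 ≤ f y ∧
      ∀ ξ : Cm n, fderiv ℂ G y ξ = 0 → 0 ≤ (∑ j, ∑ l, cHess f y j l * ξ j * conj (ξ l)).re) →
    (∃ ε₀ : ℝ, 0 < ε₀ ∧ ∀ ε : ℝ, 0 < ε → ε < ε₀ → ∀ y ∈ closedBall y' r, y ∉ N →
      ∀ᶠ ζ in 𝓝 y, κ (ε⁻¹ • (G ζ - G y')) * f ζ = 0) →
    Function.Surjective (fderiv ℂ G y') →
    ∀ᶠ ε in 𝓝[>] (0 : ℝ), c * r ^ (2 * d) * f y' ≤ ∫ y in closedBall y' r,
      ε⁻¹ ^ (2 * q) * κ (ε⁻¹ • (G y - G y')) * f y * (JF G y * (JF G y)ᴴ).det.re := by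
  obtain ⟨C, hC0, hC⟩ := mv d
  obtain ⟨c₀, hc₀, hlin⟩ := lin_low q d
  refine ⟨c₀ / (2 * C), by positivity, ?_⟩
  intro n hn κ hκs hκ0 hκc hκ1 G f N y' r hr hNo hmem hgood hoff hsurj
  obtain ⟨ε₀, hε₀, hoff⟩ := hoff
  have h : LH κ G f N y' r ε₀ := ⟨hκs, hκ0, hr, hNo, hmem, hgood, hoff⟩
  have hJs : Function.Surjective (JF G y').mulVec := by
    intro y
    obtain ⟨x, hx⟩ := hsurj y
    exact ⟨x, by rw [JF_mulVec (holV_of_an (hgood y' hmem (mem_closedBall_self hr.le)).1), hx]⟩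
  have e0 : ∀ ε : ℝ, (∫ y in closedBall y' r,
      ε⁻¹ ^ (2 * q) * κ (ε⁻¹ • (G y - G y')) * f y * (JF G y * (JF G y)ᴴ).det.re) =
      ∫ y in closedBall y' r, FF κ G f y' ε y := by
    intro ε
    refine integral_congr_ae (Eventually.of_forall fun y => ?_)
    simp only [FF, kap, DT_eq']
    ring
  simp only [e0]
  by_contra hcon
  rw [not_eventually] at hcon
  have hev : ∀ᶠ ε in 𝓝[>] (0 : ℝ), 0 < ε ∧ ε < ε₀ :=
    Ioo_mem_nhdsGT hε₀
  obtain ⟨u, hu, hup⟩ := exists_seq_forall_of_frequently (hcon.and_eventually hev)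
  have hup1 : ∀ k, ∫ y in closedBall y' r, FF κ G f y' (u k) y <
      c₀ / (2 * C) * r ^ (2 * d) * f y' := fun k => lt_of_not_ge (hup k).1
  have hu0 : ∀ k, 0 < u k := fun k => (hup k).2.1
  have hu1 : ∀ k, u k < ε₀ := fun k => (hup k).2.2
  have hInn : ∀ k, 0 ≤ ∫ y in closedBall y' r, FF κ G f y' (u k) y := fun k =>
    setIntegral_nonneg measurableSet_closedBall fun y hy => h.nonneg (hu0 k) (hu1 k) hy
  have hfpos : 0 < f y' := by
    have h1 : 0 < c₀ / (2 * C) * r ^ (2 * d) * f y' := (hInn 0).trans_lt (hup1 0)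
    exact pos_of_mul_pos_right h1 (by positivity)
  -- the constant `A`
  obtain ⟨A, hA, hlow⟩ : ∃ A : ℝ, 0 < A ∧ ENNReal.ofReal c₀ ≤ ∫⁻ v : Cm n,
      ENNReal.ofReal (κ (JF G y' *ᵥ v) * DT (JF G y') * (A / (nq v + A) ^ (d + 1))) := by
    subst hn
    obtain ⟨A₀, hA₀, hA₁⟩ := hlin (JF G y') hJs κ hκs.continuous hκ0 hκc hκ1
    exact ⟨A₀, hA₀, hA₁ A₀ le_rfl⟩
  -- the upper bound
  have hupb : ∀ k, ∫⁻ v, ENNReal.ofReal ((u k) ^ (2 * n) *
      PP κ G f N y' r d A (u k) (y' + ((u k : ℝ) : ℂ) • v)) ≤ ENNReal.ofReal (c₀ / 2 * f y') := by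
    intro k
    have hη : 0 < A * u k ^ 2 := by have := hu0 k; positivity
    have hUo := UU_open h.No y' r
    have hUs : UU N y' r ⊆ closedBall y' r := UU_sub hr
    have i1 : IntegrableOn (FF κ G f y' (u k)) (UU N y' r) :=
      (h.int (hu0 k) (hu1 k)).mono_set hUs
    have i2 := int_kk (ρ := r ^ 2) hη d y' i1
    have e1 : ∫⁻ v, ENNReal.ofReal ((u k) ^ (2 * n) *
        PP κ G f N y' r d A (u k) (y' + ((u k : ℝ) : ℂ) • v)) =
        ∫⁻ z, ENNReal.ofReal (PP κ G f N y' r d A (u k) z) := by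
      rw [lint_scale y' (hu0 k) (fun z => ENNReal.ofReal (PP κ G f N y' r d A (u k) z))]
      refine lintegral_congr fun v => ?_
      rw [ENNReal.ofReal_mul (by have := hu0 k; positivity)]
    have e2 : ∫⁻ z, ENNReal.ofReal (PP κ G f N y' r d A (u k) z) =
        ∫⁻ z in UU N y' r, ENNReal.ofReal
          (FF κ G f y' (u k) z * kk (r ^ 2) (A * u k ^ 2) d y' z) := by
      rw [← lintegral_indicator hUo.measurableSet]
      refine lintegral_congr fun z => ?_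
      by_cases hz : z ∈ UU N y' r
      · rw [PP, indicator_of_mem hz, indicator_of_mem hz]
      · rw [PP, indicator_of_notMem hz, indicator_of_notMem hz, ENNReal.ofReal_zero]
    have e3 : ∫⁻ z in UU N y' r, ENNReal.ofReal
          (FF κ G f y' (u k) z * kk (r ^ 2) (A * u k ^ 2) d y' z) =
        ENNReal.ofReal (∫ z in UU N y' r,
          FF κ G f y' (u k) z * kk (r ^ 2) (A * u k ^ 2) d y' z) := by
      rw [ofReal_integral_eq_lintegral_ofReal i2]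
      filter_upwards [ae_restrict_mem hUo.measurableSet] with z hz
      exact mul_nonneg (h.nonneg (hu0 k) (hu1 k) (hUs hz)) (kk_nonneg hη d y' z)
    rw [e1, e2, e3]
    refine ENNReal.ofReal_le_ofReal ?_
    have m1 := h.mv hC hn (hu0 k) (hu1 k) hη
    have m2 : ∫ z in UU N y' r, FF κ G f y' (u k) z ≤
        ∫ y in closedBall y' r, FF κ G f y' (u k) y := by
      refine setIntegral_mono_set (h.int (hu0 k) (hu1 k)) ?_ hUs.eventuallyLE
      filter_upwards [ae_restrict_mem measurableSet_closedBall] with z hz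
      exact h.nonneg (hu0 k) (hu1 k) hz
    have m3 : C / (r ^ 2) ^ d * ∫ z in UU N y' r, FF κ G f y' (u k) z ≤
        C / (r ^ 2) ^ d * (c₀ / (2 * C) * r ^ (2 * d) * f y') :=
      mul_le_mul_of_nonneg_left (m2.trans (hup1 k).le) (by positivity)
    refine (m1.trans m3).trans (le_of_eq ?_)
    rw [← pow_mul]
    have : r ^ (2 * d) ≠ 0 := by positivity
    field_simp
  -- Fatou
  have hmeas : ∀ k, Measurable fun v => ENNReal.ofReal ((u k) ^ (2 * n) *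
      PP κ G f N y' r d A (u k) (y' + ((u k : ℝ) : ℂ) • v)) := by
    intro k
    have h1 := h.meas (d := d) hA (hu0 k) (hu1 k)
    have h2 : Measurable fun v : Cm n => y' + ((u k : ℝ) : ℂ) • v := by
      have : Continuous fun v : Cm n => y' + ((u k : ℝ) : ℂ) • v := by fun_prop
      exact this.measurable
    exact ENNReal.measurable_ofReal.comp ((h1.comp h2).const_mul _)
  have hF := lintegral_liminf_le (u := (atTop : Filter ℕ)) hmeas (μ := (volume : Measure (Cm n)))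
  have hlimp : ∀ v : Cm n, liminf (fun k => ENNReal.ofReal ((u k) ^ (2 * n) *
      PP κ G f N y' r d A (u k) (y' + ((u k : ℝ) : ℂ) • v))) atTop =
      ENNReal.ofReal (f y' * (κ (JF G y' *ᵥ v) * DT (JF G y') *
        (A / (nq v + A) ^ (d + 1)))) := by
    intro v
    have h1 := (h.lim hn hA v).comp hu
    exact ((ENNReal.continuous_ofReal.tendsto _).comp h1).liminf_eq
  have hle : ENNReal.ofReal (f y') * ENNReal.ofReal c₀ ≤ ENNReal.ofReal (c₀ / 2 * f y') := by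
    calc ENNReal.ofReal (f y') * ENNReal.ofReal c₀
        ≤ ENNReal.ofReal (f y') * ∫⁻ v : Cm n, ENNReal.ofReal
          (κ (JF G y' *ᵥ v) * DT (JF G y') * (A / (nq v + A) ^ (d + 1))) :=
          mul_le_mul_right hlow _
      _ = ∫⁻ v : Cm n, ENNReal.ofReal (f y' * (κ (JF G y' *ᵥ v) * DT (JF G y') *
          (A / (nq v + A) ^ (d + 1)))) := by
          rw [← lintegral_const_mul' _ _ ENNReal.ofReal_ne_top]
          refine lintegral_congr fun v => ?_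
          rw [← ENNReal.ofReal_mul hfpos.le]
      _ = ∫⁻ v : Cm n, liminf (fun k => ENNReal.ofReal ((u k) ^ (2 * n) *
          PP κ G f N y' r d A (u k) (y' + ((u k : ℝ) : ℂ) • v))) atTop :=
          lintegral_congr fun v => (hlimp v).symm
      _ ≤ liminf (fun k => ∫⁻ v, ENNReal.ofReal ((u k) ^ (2 * n) *
          PP κ G f N y' r d A (u k) (y' + ((u k : ℝ) : ℂ) • v))) atTop := hF
      _ ≤ ENNReal.ofReal (c₀ / 2 * f y') := by
          refine liminf_le_of_le (by isBoundedDefault) fun b hb => ?_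
          obtain ⟨k, hk⟩ := hb.exists
          exact hk.trans (hupb k)
  rw [← ENNReal.ofReal_mul hfpos.le, ENNReal.ofReal_le_ofReal_iff (by positivity)] at hle
  nlinarith [mul_pos hc₀ hfpos]

/-- the integrand of `loc` is integrable -/
theorem loc_int {n q : ℕ} {κ : Cm q → ℝ} {G : Cm n → Cm q} {f : Cm n → ℝ} {N : Set (Cm n)}
    {y' : Cm n} {r ε₀ : ℝ} (h : LH κ G f N y' r ε₀) {ε : ℝ} (h0 : 0 < ε) (h1 : ε < ε₀) :
    IntegrableOn (fun y => ε⁻¹ ^ (2 * q) * κ (ε⁻¹ • (G y - G y')) * f y *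
      (JF G y * (JF G y)ᴴ).det.re) (closedBall y' r) := by
  have e : (fun y => ε⁻¹ ^ (2 * q) * κ (ε⁻¹ • (G y - G y')) * f y *
      (JF G y * (JF G y)ᴴ).det.re) = FF κ G f y' ε := by
    funext y
    simp only [FF, kap, DT_eq']
    ring
  rw [e]
  exact h.int h0 h1

end Vale.Agent.P284.H885.D
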