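import Vale.Agent.P284.H501.K.Stk

/-!
# P284, project D: the local module, Stokes' formula along the fibres of a holomorphic map

`∫ f κ(G) ∂∂̄H ∧ β^{d-1} ∧ dG ∧ dḠ = ∫ H κ(G) ∂∂̄f ∧ β^{d-1} ∧ dG ∧ dḠ`.
-/

open scoped ContDiff ComplexOrder ComplexConjugate Topology Matrix
open MeasureTheory Set Filter

noncomputable section

namespace Vale.Agent.P284.H885.D

open Vale.Agent.P272.K Vale.Agent.P284.H650 Vale.Agent.P284.H66.S7 Vale.Agent.P284.H501.K
  Vale.Agent.P284.H894.V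

variable {n q : ℕ} {U : Set (Cm n)} {G : Cm n → Cm q}

theorem xb_smooth {z : Cm n} (hG : HolV G z) (k i j : Fin n) :
    ContDiffAt ℝ ∞ (fun y => Xb (1 : Matrix (Fin n) (Fin n) ℂ) (JF G y) k i j) z := by
  by_cases h : (k : ℕ) < q
  · simp only [Xb, dif_pos h, rk1, Matrix.of_apply]
    exact (hG.J _ i).smooth.mul (hG.J _ j).smooth_conj
  · simp only [Xb, dif_neg h]
    exact contDiffAt_const

theorem xb_closed {z : Cm n} (hG : HolV G z) (k i r l : Fin n) :
    dz i (fun y => Xb (1 : Matrix (Fin n) (Fin n) ℂ) (JF G y) k r l) z =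
      dz r (fun y => Xb (1 : Matrix (Fin n) (Fin n) ℂ) (JF G y) k i l) z := by
  by_cases h : (k : ℕ) < q
  · simp only [Xb, dif_pos h, rk1, Matrix.of_apply]
    rw [INT.dz_mul (hG.J _ r).diff (hG.J _ l).diff_conj,
      INT.dz_mul (hG.J _ i).diff (hG.J _ l).diff_conj, (hG.J _ l).dz_conj0, (hG.J _ l).dz_conj0,
      mul_zero, mul_zero]
    have h1 : dz i (fun y => JF G y ⟨k, h⟩ r) z = dz r (fun y => JF G y ⟨k, h⟩ i) z :=
      C2.dz_dz_comm i r ((hG ⟨k, h⟩).smooth.of_le (by norm_cast))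
    rw [h1]
  · simp only [Xb, dif_neg h]
    rw [INT.dz_const, INT.dz_const]

/-- the form number `q` in `dG ∧ dḠ ∧ x ∧ β^{d-1}` -/
def MX (hq : q < n) (G : Cm n → Cm q) (z : Cm n) (x : Matrix (Fin n) (Fin n) ℂ) : ℂ :=
  MD (Function.update (Xb 1 (JF G z)) ⟨q, hq⟩ x)

theorem MX_add (hq : q < n) (z : Cm n) (x y : Matrix (Fin n) (Fin n) ℂ) :
    MX hq G z (x + y) = MX hq G z x + MX hq G z y := MD_update_add _ _ _ _

theorem MX_smul (hq : q < n) (z : Cm n) (c : ℂ) (x : Matrix (Fin n) (Fin n) ℂ) :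
    MX hq G z (c • x) = c * MX hq G z x := MD_update_smul _ _ _ _

theorem MX_left (hq : q < n) (z : Cm n) (p : Fin q) (c : Fin n → ℂ) :
    MX hq G z (rk1 (JF G z p) c) = 0 := by
  have hne : Fin.castLE hq.le p ≠ ⟨q, hq⟩ := by
    intro h
    have : (p : ℕ) = q := by simpa using congrArg Fin.val h
    exact absurd p.2 (by omega)
  rw [MX, Xb_eq 1 (JF G z) p hq.le, MD_left_eq _ hne]

theorem MX_conj (hq : q < n) (z : Cm n) (x : Matrix (Fin n) (Fin n) ℂ) :
    MX hq G z xᴴ = conj (MX hq G z x) := by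
  rw [MX, MX, ← MD_conjTranspose]
  congr 1
  funext i
  by_cases h : i = ⟨q, hq⟩
  · subst h
    rw [Function.update_self, Function.update_self]
  · rw [Function.update_of_ne h, Function.update_of_ne h]
    exact (Xb_herm Matrix.isHermitian_one _ i).symm

theorem gg_conj (f h : Cm n → ℝ) (z : Cm n) : (gg h f z)ᴴ = gg f h z := by
  ext j l
  simp only [gg, dzbv_eq, rk1, Matrix.conjTranspose_apply, Matrix.of_apply]
  simp [mul_comm]

theorem holV_diff {z : Cm n} (hG : HolV G z) : DifferentiableAt ℂ G z :=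
  differentiableAt_pi.2 fun j => (hG j).self_of_nhds

theorem holV_smooth {z : Cm n} (hG : HolV G z) : ContDiffAt ℝ ∞ G z :=
  contDiffAt_pi.2 fun j => (hG j).smooth

theorem dzv_kG {z : Cm n} (hG : HolV G z) {κ : Cm q → ℝ} (hκ : ContDiff ℝ ∞ κ) :
    dzv (fun y => κ (G y)) z = ∑ p, dz p (fun t => (κ t : ℂ)) (G z) • JF G z p := by
  funext i
  have h2 : DifferentiableAt ℝ (fun t => (κ t : ℂ)) (G z) :=
    (INT.ofReal_contDiffAt hκ.contDiffAt).differentiableAt (by simp)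
  rw [dzv, dz_comp_hol (f := fun t => (κ t : ℂ)) (holV_diff hG) h2, Finset.sum_apply]
  rfl

theorem MX_kG (hq : q < n) {z : Cm n} (hG : HolV G z) {κ : Cm q → ℝ} (hκ : ContDiff ℝ ∞ κ)
    (c : Fin n → ℂ) : MX hq G z (rk1 (dzv (fun y => κ (G y)) z) c) = 0 := by
  rw [dzv_kG hG hκ, rk1_sum_left, MX, MD_update_sum]
  refine Finset.sum_eq_zero fun p _ => ?_
  rw [rk1_smul_left, MD_update_smul]
  have := MX_left (G := G) hq z p c
  rw [MX] at this
  rw [this, mul_zero]

theorem dzv_mul {f h : Cm n → ℝ} {z : Cm n} (hf : ContDiffAt ℝ ∞ f z) (hh : ContDiffAt ℝ ∞ h z) :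
    dzv (fun y => f y * h y) z = (h z : ℂ) • dzv f z + (f z : ℂ) • dzv h z := by
  funext j
  have e : (fun y => ((f y * h y : ℝ) : ℂ)) = fun y => (f y : ℂ) * (h y : ℂ) := by
    funext y; push_cast; rfl
  simp only [dzv, Pi.add_apply, Pi.smul_apply, smul_eq_mul]
  rw [e, INT.dz_mul ((INT.ofReal_contDiffAt hf).differentiableAt (by simp))
    ((INT.ofReal_contDiffAt hh).differentiableAt (by simp))]
  ring

/-- `m` is constant along the fibres of `G`, to first order -/
def Bas (hq : q < n) (G : Cm n → Cm q) (m : Cm n → ℝ) (z : Cm n) : Prop :=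
  ContDiffAt ℝ ∞ m z ∧ ∀ c, MX hq G z (rk1 (dzv m z) c) = 0

theorem bas_comp (hq : q < n) {z : Cm n} (hG : HolV G z) {κ : Cm q → ℝ} (hκ : ContDiff ℝ ∞ κ) :
    Bas hq G (fun y => κ (G y)) z :=
  ⟨hκ.contDiffAt.comp z (holV_smooth hG), fun c => MX_kG hq hG hκ c⟩

theorem MX_gg_mul (hq : q < n) {z : Cm n} {m f H : Cm n → ℝ} (hm : Bas hq G m z)
    (hf : ContDiffAt ℝ ∞ f z) :
    MX hq G z (gg (fun y => f y * m y) H z) = (m z : ℂ) * MX hq G z (gg f H z) := by
  have e : gg (fun y => f y * m y) H z = (m z : ℂ) • gg f H z +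
      (f z : ℂ) • rk1 (dzv m z) (dzbv H z) := by
    rw [gg, dzv_mul hf hm.1, rk1_add_left, rk1_smul_left, rk1_smul_left, gg]
  rw [e, MX_add, MX_smul, MX_smul, hm.2, mul_zero, add_zero]

/-- the product with a basic function is basic -/
theorem Bas.mul (hq : q < n) {z : Cm n} {m m' : Cm n → ℝ} (hm : Bas hq G m z)
    (hm' : Bas hq G m' z) : Bas hq G (fun y => m y * m' y) z := by
  refine ⟨hm.1.mul hm'.1, fun c => ?_⟩
  rw [dzv_mul hm.1 hm'.1, rk1_add_left, rk1_smul_left, rk1_smul_left, MX_add, MX_smul, MX_smul,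
    hm.2, hm'.2]
  simp

/-- **Stokes' formula along the fibres of `G`** -/
theorem swap (hU : IsOpen U) (hq : q < n) (hG : ∀ z ∈ U, HolV G z) {m : Cm n → ℝ}
    (hm : ∀ z ∈ U, Bas hq G m z) {f H : Cm n → ℝ} (hf : ∀ z ∈ U, ContDiffAt ℝ ∞ f z)
    (hH : ∀ z ∈ U, ContDiffAt ℝ ∞ H z) {K : Set (Cm n)} (hK : IsCompact K) (hKU : K ⊆ U)
    (hout : ∀ z ∉ K, (m =ᶠ[𝓝 z] fun _ => 0) ∨ (H =ᶠ[𝓝 z] fun _ => 0)) :
    IntegrableOn (fun z => f z * m z * (MX hq G z (cHess H z)).re) U ∧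
    IntegrableOn (fun z => H z * m z * (MX hq G z (cHess f z)).re) U ∧
    ∫ z in U, f z * m z * (MX hq G z (cHess H z)).re =
      ∫ z in U, H z * m z * (MX hq G z (cHess f z)).re := by
  obtain ⟨a1, a2, a3⟩ := ibp_loc (X := fun k z => Xb 1 (JF G z) k) (f := H)
    (h := fun z => f z * m z) (K := K) hU ⟨q, hq⟩
    (fun k _ z hz i j => xb_smooth (hG z hz) k i j)
    (fun k _ z hz i r l => xb_closed (hG z hz) k i r l) hH
    (fun z hz => (hf z hz).mul (hm z hz).1) hK hKU (fun z hz => by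
      rcases hout z hz with h | h
      · left
        filter_upwards [h] with y hy
        rw [hy, mul_zero]
      · exact Or.inr h)
  obtain ⟨b1, b2, b3⟩ := ibp_loc (X := fun k z => Xb 1 (JF G z) k) (f := f)
    (h := fun z => H z * m z) (K := K) hU ⟨q, hq⟩
    (fun k _ z hz i j => xb_smooth (hG z hz) k i j)
    (fun k _ z hz i r l => xb_closed (hG z hz) k i r l) hf
    (fun z hz => (hH z hz).mul (hm z hz).1) hK hKU (fun z hz => by
      rcases hout z hz with h | h
      · left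
        filter_upwards [h] with y hy
        rw [hy, mul_zero]
      · left
        filter_upwards [h] with y hy
        rw [hy, zero_mul])
  change IntegrableOn (fun z => ((f z * m z : ℝ) : ℂ) * MX hq G z (cHess H z)) U at a1
  change IntegrableOn (fun z => ((H z * m z : ℝ) : ℂ) * MX hq G z (cHess f z)) U at b1
  change IntegrableOn (fun z => MX hq G z (gg (fun y => f y * m y) H z)) U at a2
  change IntegrableOn (fun z => MX hq G z (gg (fun y => H y * m y) f z)) U at b2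
  change ∫ z in U, ((f z * m z : ℝ) : ℂ) * MX hq G z (cHess H z) =
    -∫ z in U, MX hq G z (gg (fun y => f y * m y) H z) at a3
  change ∫ z in U, ((H z * m z : ℝ) : ℂ) * MX hq G z (cHess f z) =
    -∫ z in U, MX hq G z (gg (fun y => H y * m y) f z) at b3
  have e1 : (fun z => f z * m z * (MX hq G z (cHess H z)).re) =
      fun z => (((f z * m z : ℝ) : ℂ) * MX hq G z (cHess H z)).re := by
    funext z; rw [Complex.re_ofReal_mul]
  have e2 : (fun z => H z * m z * (MX hq G z (cHess f z)).re) =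
      fun z => (((H z * m z : ℝ) : ℂ) * MX hq G z (cHess f z)).re := by
    funext z; rw [Complex.re_ofReal_mul]
  refine ⟨by rw [e1]; exact a1.re, by rw [e2]; exact b1.re, ?_⟩
  have r1 : ∀ F : Cm n → ℂ, IntegrableOn F U → ∫ z in U, (F z).re = (∫ z in U, F z).re :=
    fun F hF => (integral_re hF)
  rw [e1, e2, r1 _ a1, r1 _ b1, a3, b3, Complex.neg_re, Complex.neg_re, ← r1 _ a2, ← r1 _ b2]
  congr 1
  refine setIntegral_congr_fun hU.measurableSet fun z hz => ?_
  rw [MX_gg_mul hq (hm z hz) (hf z hz), MX_gg_mul hq (hm z hz) (hH z hz), ← gg_conj H f z,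
    MX_conj, Complex.re_ofReal_mul, Complex.re_ofReal_mul, Complex.conj_re]

end Vale.Agent.P284.H885.D
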