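import Vale.Agent.P284.H885.D.Loc1

/-!
# P284, project D: the local module, Stokes' formula with conditions on an open set only
-/

open scoped ContDiff ComplexOrder ComplexConjugate Topology Matrix Manifold
open MeasureTheory Set Filter

noncomputable section

namespace Vale.Agent.P284.H885.D

open Vale.Agent.P272.K Vale.Agent.P284.H650 Vale.Agent.P284.H66.S7 Vale.Agent.P284.H501.K
  Vale.Agent.P284.H894.V

variable {n q : ℕ} {U : Set (Cm n)} {G : Cm n → Cm q}

/-- a smooth function of compact support in `U`, `1` near `K` -/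
theorem exists_cutU (hU : IsOpen U) {K : Set (Cm n)} (hK : IsCompact K) (hKU : K ⊆ U) :
    ∃ (χ : Cm n → ℝ) (L : Set (Cm n)), ContDiff ℝ ∞ χ ∧ IsCompact L ∧ L ⊆ U ∧
      (∀ z ∈ K, χ =ᶠ[𝓝 z] fun _ => 1) ∧ ∀ z ∉ L, χ =ᶠ[𝓝 z] fun _ => 0 := by
  obtain ⟨L, hL, hKL, hLU⟩ := exists_compact_between hK hU hKU
  obtain ⟨χ, h1, h2, -⟩ := exists_contMDiffMap_one_nhds_of_subset_interior (n := ⊤) 𝓘(ℝ, Cm n)
    hK.isClosed hKL
  refine ⟨χ, L, χ.contMDiff.contDiff, hL, hLU, fun z hz => ?_, fun z hz => ?_⟩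
  · exact h1.filter_mono (nhds_le_nhdsSet hz)
  · filter_upwards [hL.isClosed.isOpen_compl.mem_nhds hz] with y hy
    exact h2 y hy

/-- **Stokes' formula along the fibres of `G`**, conditions on `U` only -/
theorem swapU (hU : IsOpen U) (hq : q < n) (hG : ∀ z ∈ U, HolV G z) {m : Cm n → ℝ}
    (hm : ∀ z ∈ U, Bas hq G m z) {f H : Cm n → ℝ} (hf : ∀ z ∈ U, ContDiffAt ℝ ∞ f z)
    (hH : ∀ z ∈ U, ContDiffAt ℝ ∞ H z) {K : Set (Cm n)} (hK : IsCompact K) (hKU : K ⊆ U)
    (hout : ∀ z ∈ U, z ∉ K → ((fun y => f y * m y) =ᶠ[𝓝 z] fun _ => 0) ∨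
      (H =ᶠ[𝓝 z] fun _ => 0)) :
    IntegrableOn (fun z => f z * m z * (MX hq G z (cHess H z)).re) U ∧
    IntegrableOn (fun z => H z * m z * (MX hq G z (cHess f z)).re) U ∧
    ∫ z in U, f z * m z * (MX hq G z (cHess H z)).re =
      ∫ z in U, H z * m z * (MX hq G z (cHess f z)).re := by
  obtain ⟨χ, L, hχ, hL, hLU, h1, h0⟩ := exists_cutU hU hK hKU
  have hf' : ∀ z ∈ U, ContDiffAt ℝ ∞ (fun y => χ y * f y) z := fun z hz =>
    hχ.contDiffAt.mul (hf z hz)
  have hH' : ∀ z ∈ U, ContDiffAt ℝ ∞ (fun y => χ y * H y) z := fun z hz =>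
    hχ.contDiffAt.mul (hH z hz)
  obtain ⟨s1, s2, s3⟩ := swap (m := m) (f := fun y => χ y * f y) (H := fun y => χ y * H y)
    hU hq hG hm hf' hH' hL hLU (fun z hz => by
      right
      filter_upwards [h0 z hz] with y hy
      rw [hy, zero_mul])
  have e0 : ∀ (g : Cm n → ℝ) (z : Cm n), g =ᶠ[𝓝 z] (fun _ => 0) →
      g z = 0 ∧ cHess g z = 0 ∧ (fun y => χ y * g y) z = 0 ∧ cHess (fun y => χ y * g y) z = 0 := by
    intro g z hg
    have h2 : (fun y => χ y * g y) =ᶠ[𝓝 z] fun _ => 0 := by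
      filter_upwards [hg] with y hy
      rw [hy, mul_zero]
    exact ⟨hg.self_of_nhds, by rw [C2.cHess_congr hg, C2.cHess_const], h2.self_of_nhds,
      by rw [C2.cHess_congr h2, C2.cHess_const]⟩
  have e1 : ∀ (g : Cm n → ℝ), ∀ z ∈ K, χ z * g z = g z ∧
      cHess (fun y => χ y * g y) z = cHess g z := by
    intro g z hz
    have h2 : (fun y => χ y * g y) =ᶠ[𝓝 z] g := by
      filter_upwards [h1 z hz] with y hy
      rw [hy, one_mul]
    exact ⟨h2.self_of_nhds, C2.cHess_congr h2⟩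
  have M0 : ∀ z, MX hq G z 0 = 0 := fun z => MD_update_zero _ _
  have k1 : EqOn (fun z => (χ z * f z) * m z * (MX hq G z (cHess (fun y => χ y * H y) z)).re)
      (fun z => f z * m z * (MX hq G z (cHess H z)).re) U := by
    intro z hz
    simp only
    by_cases hzK : z ∈ K
    · rw [(e1 f z hzK).1, (e1 H z hzK).2]
    · rcases hout z hz hzK with h | h
      · have h3 : f z * m z = 0 := h.self_of_nhds
        rw [mul_assoc (χ z), h3]; simp
      · rw [(e0 H z h).2.1, (e0 H z h).2.2.2, M0]; simp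
  have k2 : EqOn (fun z => (χ z * H z) * m z * (MX hq G z (cHess (fun y => χ y * f y) z)).re)
      (fun z => H z * m z * (MX hq G z (cHess f z)).re) U := by
    intro z hz
    simp only
    by_cases hzK : z ∈ K
    · rw [(e1 H z hzK).1, (e1 f z hzK).2]
    · rcases hout z hz hzK with h | h
      · by_cases hmz : m z = 0
        · rw [hmz]; simp
        · have h3 : f =ᶠ[𝓝 z] fun _ => 0 := by
            filter_upwards [h, (hm z hz).1.continuousAt.eventually_ne hmz] with y hy hy'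
            exact (mul_eq_zero.1 hy).resolve_right hy'
          rw [(e0 f z h3).2.1, (e0 f z h3).2.2.2, M0]; simp
      · rw [h.self_of_nhds]; simp
  refine ⟨s1.congr_fun k1 hU.measurableSet, s2.congr_fun k2 hU.measurableSet, ?_⟩
  rw [← setIntegral_congr_fun hU.measurableSet k1, ← setIntegral_congr_fun hU.measurableSet k2]
  exact s3

end Vale.Agent.P284.H885.D
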