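import Vale.Agent.P284.H885.D.Loc2

/-!
# P284, project D: the local module, pointwise algebra and radial functions
-/

open scoped ContDiff ComplexOrder ComplexConjugate Topology Matrix
open MeasureTheory Set Filter

noncomputable section

namespace Vale.Agent.P284.H885.D

open Matrix Vale.Agent.P272.K Vale.Agent.P284.H650 Vale.Agent.P284.H66.S7 Vale.Agent.P284.H501.K
  Vale.Agent.P284.H894.V Vale.Agent.P284.H402.A

variable {n q : ℕ} {G : Cm n → Cm q} {z : Cm n}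

/-- the Gram determinant `det (J̄ Jᵀ)` -/
def DT (J : Matrix (Fin q) (Fin n) ℂ) : ℝ := DD (1 : Matrix (Fin n) (Fin n) ℂ) Jᵀ 0

theorem DT_eq (J : Matrix (Fin q) (Fin n) ℂ) :
    DT J = (J.map (starRingEnd ℂ) * J.transpose).det.re := by
  rw [DT, DD, TT_zero, inv_one, Matrix.mul_one]
  rfl

theorem DT_nonneg (J : Matrix (Fin q) (Fin n) ℂ) : 0 ≤ DT J :=
  (H279.a2Stmt.DD_nonneg 1 Jᵀ 0 Matrix.PosDef.one le_rfl).1

theorem AA_eq (J : Matrix (Fin q) (Fin n) ℂ) : AA (1 : Matrix (Fin n) (Fin n) ℂ) Jᵀ 0 =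
    (Jᵀᴴ * Jᵀ).det • (1 : Matrix (Fin n) (Fin n) ℂ) - Jᵀ * (Jᵀᴴ * Jᵀ).adjugate * Jᵀᴴ := by
  rw [AA, TT_zero, inv_one]
  simp only [Matrix.mul_one, Matrix.one_mul]

theorem sum_sq_eq (u : Fin n → ℂ) : ((∑ j, ‖u j‖ ^ 2 : ℝ) : ℂ) = star u ⬝ᵥ u := by
  rw [dotProduct]
  push_cast
  refine Finset.sum_congr rfl fun j _ => ?_
  have h : star (u j) * u j = ((Complex.normSq (u j) : ℝ) : ℂ) := by
    rw [Complex.normSq_eq_conj_mul_self]; rfl
  rw [Pi.star_apply, h, Complex.normSq_eq_norm_sq]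
  push_cast
  rfl

theorem qf_AA_le (J : Matrix (Fin q) (Fin n) ℂ) (u : Fin n → ℂ) :
    (star u ⬝ᵥ AA (1 : Matrix (Fin n) (Fin n) ℂ) Jᵀ 0 *ᵥ u).re ≤ DT J * ∑ j, ‖u j‖ ^ 2 := by
  by_cases h0 : DT J = 0
  · rw [H279.a2Stmt.zero 1 Jᵀ Matrix.PosDef.one h0, Matrix.zero_mulVec, dotProduct_zero, h0]
    simp
  · set T := Jᵀᴴ * Jᵀ with hT
    have hps : T.PosSemidef := Matrix.posSemidef_conjTranspose_mul_self _
    have hd : DT J = T.det.re := by
      rw [DT, DD, TT_zero, inv_one, Matrix.mul_one]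
    have hdet : T.det ≠ 0 := by
      intro h
      rw [hd, h] at h0
      exact h0 rfl
    have hreal : ((T.det.re : ℝ) : ℂ) = T.det := by
      have := hps.det_nonneg
      rw [Complex.le_def] at this
      exact Complex.ext rfl (by simpa using this.2)
    have hpos : 0 ≤ T.det := hps.det_nonneg
    have hadj : T.adjugate = T.det • T⁻¹ := by
      rw [Matrix.inv_def, smul_smul, Ring.inverse_eq_inv', mul_inv_cancel₀ hdet, one_smul]
    have hadjp : T.adjugate.PosSemidef := by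
      rw [hadj]
      exact hps.inv.smul hpos
    have h1 : (Jᵀ * T.adjugate * Jᵀᴴ).PosSemidef := hadjp.mul_mul_conjTranspose_same Jᵀ
    have h2 : star u ⬝ᵥ AA (1 : Matrix (Fin n) (Fin n) ℂ) Jᵀ 0 *ᵥ u =
        T.det * (star u ⬝ᵥ u) - star u ⬝ᵥ (Jᵀ * T.adjugate * Jᵀᴴ) *ᵥ u := by
      rw [AA_eq, Matrix.sub_mulVec, dotProduct_sub, Matrix.smul_mulVec, Matrix.one_mulVec,
        dotProduct_smul, smul_eq_mul]
    have h3 := h1.re_dotProduct_nonneg u
    rw [h2, ← sum_sq_eq, ← hreal, Complex.sub_re, Complex.re_ofReal_mul, Complex.ofReal_re, hd]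
    have h4 : (0 : ℝ) ≤ (star u ⬝ᵥ (Jᵀ * T.adjugate * Jᵀᴴ) *ᵥ u).re := h3
    linarith

theorem qf_AA_nonneg (J : Matrix (Fin q) (Fin n) ℂ) (u : Fin n → ℂ) :
    0 ≤ (star u ⬝ᵥ AA (1 : Matrix (Fin n) (Fin n) ℂ) Jᵀ 0 *ᵥ u).re :=
  (H279.a2Stmt.herm 1 Jᵀ 0 Matrix.PosDef.one le_rfl).re_dotProduct_nonneg u

theorem MX_tr (hq : q < n) (x : Matrix (Fin n) (Fin n) ℂ) :
    MX hq G z x = ((n - q - 1).factorial : ℂ) *
      (AA (1 : Matrix (Fin n) (Fin n) ℂ) (JF G z)ᵀ 0 * x).trace := by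
  rw [MX, MD_Xb (s := n - q - 1) Matrix.PosDef.one _ (by omega) hq, Matrix.det_one, mul_one]

theorem MX_one (hq : q < n) : MX hq G z 1 = ((n - q).factorial : ℂ) * (DT (JF G z) : ℂ) := by
  have e : Function.update (Xb (1 : Matrix (Fin n) (Fin n) ℂ) (JF G z)) ⟨q, hq⟩ 1 =
      Xb 1 (JF G z) := by
    funext i
    by_cases h : i = ⟨q, hq⟩
    · subst h
      rw [Function.update_self, Xb, dif_neg (lt_irrefl q)]
    · rw [Function.update_of_ne h]
  rw [MX, e, ← dJ_real Matrix.isHermitian_one, dJ_eq Matrix.PosDef.one (s := n - q) _ (by omega),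
    DT_eq, inv_one, Matrix.mul_one, Matrix.det_one]
  push_cast
  simp

theorem trace_rk1 (A : Matrix (Fin n) (Fin n) ℂ) (u : Fin n → ℂ) :
    (A * rk1 u (fun l => conj (u l))).trace = star u ⬝ᵥ A *ᵥ u := by
  rw [Matrix.trace, dotProduct]
  refine Finset.sum_congr rfl fun i _ => ?_
  rw [Matrix.diag_apply, Matrix.mul_apply, mulVec, dotProduct, Finset.mul_sum]
  refine Finset.sum_congr rfl fun j _ => ?_
  simp only [rk1, Matrix.of_apply, Pi.star_apply]
  have : star (u i) = conj (u i) := rfl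
  rw [this]
  ring

/-- the form number `q` is `a + b u ū`, `b ≥ 0` -/
theorem MX_rad (hq : q < n) (a b : ℝ) (hb : 0 ≤ b) (u : Fin n → ℂ) :
    (MX hq G z ((a : ℂ) • 1 + (b : ℂ) • rk1 u (fun l => conj (u l)))).re ≤
      ((n - q - 1).factorial : ℝ) * DT (JF G z) * ((n - q : ℕ) * a + b * ∑ j, ‖u j‖ ^ 2) := by
  rw [MX_add, MX_smul, MX_smul, MX_one, Complex.add_re, MX_tr hq (rk1 _ _), trace_rk1]
  have h1 : ((n - q).factorial : ℝ) = (n - q : ℕ) * ((n - q - 1).factorial : ℝ) := by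
    have : (n - q) = (n - q - 1) + 1 := by omega
    rw [this, Nat.factorial_succ]
    push_cast
    simp
  have h2 : ((a : ℂ) * (((n - q).factorial : ℂ) * (DT (JF G z) : ℂ))).re =
      ((n - q - 1).factorial : ℝ) * DT (JF G z) * ((n - q : ℕ) * a) := by
    have : ((a : ℂ) * (((n - q).factorial : ℂ) * (DT (JF G z) : ℂ))) =
        ((a * (((n - q).factorial : ℝ) * DT (JF G z)) : ℝ) : ℂ) := by push_cast; rfl
    rw [this, Complex.ofReal_re, h1]
    ring
  have h3 : ((b : ℂ) * (((n - q - 1).factorial : ℂ) *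
      (star u ⬝ᵥ AA (1 : Matrix (Fin n) (Fin n) ℂ) (JF G z)ᵀ 0 *ᵥ u))).re =
      ((n - q - 1).factorial : ℝ) * (b *
        (star u ⬝ᵥ AA (1 : Matrix (Fin n) (Fin n) ℂ) (JF G z)ᵀ 0 *ᵥ u).re) := by
    have : (((n - q - 1).factorial : ℂ)) = (((n - q - 1).factorial : ℝ) : ℂ) := by push_cast; rfl
    rw [this, Complex.re_ofReal_mul, Complex.re_ofReal_mul]
    ring
  rw [h2, h3]
  have h4 := qf_AA_le (JF G z) u
  have h5 : (0 : ℝ) ≤ ((n - q - 1).factorial : ℝ) := by positivity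
  have h6 := mul_le_mul_of_nonneg_left (mul_le_mul_of_nonneg_left h4 hb) h5
  nlinarith [h6]

/-! ### Radial functions -/

/-- `|y - y'|²` -/
def nsd (y' y : Cm n) : ℝ := ∑ j, ‖y j - y' j‖ ^ 2

theorem nsd_smooth (y' : Cm n) : ContDiff ℝ ∞ (nsd y') := by
  unfold nsd
  refine ContDiff.sum fun k _ => ?_
  have h1 : ContDiff ℝ ∞ (fun z : Cm n => z k - y' k) := (contDiff_apply ℝ ℂ k).sub contDiff_const
  exact h1.norm_sq ℝ

theorem nsd_nonneg (y' y : Cm n) : 0 ≤ nsd y' y := Finset.sum_nonneg fun _ _ => sq_nonneg _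

theorem proj_diff (k : Fin n) (z : Cm n) : DifferentiableAt ℂ (fun y : Cm n => y k) z :=
  (ContinuousLinearMap.proj (R := ℂ) (φ := fun _ : Fin n => ℂ) k).differentiableAt

theorem proj_hol (k : Fin n) (z : Cm n) : Hol (fun y : Cm n => y k) z :=
  Eventually.of_forall fun y => proj_diff k y

theorem dz_proj (i k : Fin n) (z : Cm n) :
    Vale.Agent.P272.K.dz i (fun y : Cm n => y k) z = if i = k then 1 else 0 := by
  rw [Vale.Agent.P272.K.dz_of_holo (proj_diff k z)]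
  have h : fderiv ℂ (fun y : Cm n => y k) z =
      ContinuousLinearMap.proj (R := ℂ) (φ := fun _ : Fin n => ℂ) k :=
    (ContinuousLinearMap.proj (R := ℂ) (φ := fun _ : Fin n => ℂ) k).fderiv
  rw [h]
  simp only [ContinuousLinearMap.proj_apply]
  by_cases hik : i = k
  · subst hik; simp
  · rw [if_neg hik]
    exact Pi.single_eq_of_ne (Ne.symm hik) _

theorem dzb_nsd (y' : Cm n) (k : Fin n) (z : Cm n) :
    dzb k (fun y => ((nsd y' y : ℝ) : ℂ)) z = z k - y' k := by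
  have h0 : (fun y : Cm n => ((nsd y' y : ℝ) : ℂ)) =
      fun y => ∑ l, (y l - y' l) * conj (y l - y' l) := by
    funext y
    unfold nsd
    push_cast
    refine Finset.sum_congr rfl fun l _ => ?_
    rw [Complex.mul_conj, Complex.normSq_eq_norm_sq]
    push_cast; rfl
  have hH : ∀ l, Hol (fun y : Cm n => y l - y' l) z := fun l =>
    Eventually.of_forall fun y => (proj_diff l y).sub_const _
  rw [h0, C2.dzb_sum k _ fun l _ => (hH l).diff.fun_mul (hH l).diff_conj]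
  have h1 : ∀ l, dzb k (fun y : Cm n => (y l - y' l) * conj (y l - y' l)) z =
      if k = l then z l - y' l else 0 := by
    intro l
    have h2 : Vale.Agent.P272.K.dz k (fun y : Cm n => y l - y' l) z = if k = l then 1 else 0 := by
      have : (fun y : Cm n => y l - y' l) = fun y => y l + (- y' l) := by
        funext y; ring
      rw [this, INT.dz_add (proj_hol l z).diff (differentiableAt_const _), INT.dz_const, add_zero,
        dz_proj]
    rw [C2.dzb_mul k (hH l).diff (hH l).diff_conj, (hH l).dzb0, C2.dzb_conj k (hH l).diff, h2]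
    by_cases hkl : k = l
    · simp [hkl]
    · simp [hkl]
  simp only [h1]
  simp

theorem dz_nsd (y' : Cm n) (k : Fin n) (z : Cm n) :
    Vale.Agent.P272.K.dz k (fun y => ((nsd y' y : ℝ) : ℂ)) z = conj (z k - y' k) := by
  rw [C2.dz_real k ((nsd_smooth y').differentiable (by simp)).differentiableAt, dzb_nsd]

theorem cHess_nsd (y' z : Cm n) : cHess (nsd y') z = 1 := by
  ext j k
  rw [C2.cHess_apply]
  have h1 : dzb k (fun y => ((nsd y' y : ℝ) : ℂ)) = fun y : Cm n => y k + (- y' k) := by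
    funext y; rw [dzb_nsd]; ring
  rw [h1, INT.dz_add (proj_hol k z).diff (differentiableAt_const _), INT.dz_const, add_zero,
    dz_proj, Matrix.one_apply]

theorem cHess_rad {ψ ψ₁ : ℝ → ℝ} {ψ₂ : ℝ} {y' z : Cm n}
    (hψ : ∀ᶠ s in 𝓝 (nsd y' z), HasDerivAt ψ (ψ₁ s) s) (hψ₁ : HasDerivAt ψ₁ ψ₂ (nsd y' z)) :
    cHess (fun y => ψ (nsd y' y)) z = ((ψ₁ (nsd y' z) : ℝ) : ℂ) • 1 +
      (ψ₂ : ℂ) • rk1 (fun j => conj (z j - y' j)) (fun l => conj (conj (z l - y' l))) := by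
  ext j k
  rw [C2.cHess_comp hψ hψ₁ ((nsd_smooth y').contDiffAt.of_le (by norm_cast)) j k, cHess_nsd,
    dz_nsd, dzb_nsd]
  simp only [rk1, Matrix.add_apply, Matrix.smul_apply, Matrix.of_apply, smul_eq_mul,
    Complex.conj_conj]

/-- the pointwise inequality for a radial function -/
theorem MX_radial (hq : q < n) {ψ ψ₁ : ℝ → ℝ} {ψ₂ : ℝ} {y' : Cm n}
    (hψ : ∀ᶠ s in 𝓝 (nsd y' z), HasDerivAt ψ (ψ₁ s) s) (hψ₁ : HasDerivAt ψ₁ ψ₂ (nsd y' z))
    (h2 : 0 ≤ ψ₂) :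
    (MX hq G z (cHess (fun y => ψ (nsd y' y)) z)).re ≤
      ((n - q - 1).factorial : ℝ) * DT (JF G z) *
        ((n - q : ℕ) * ψ₁ (nsd y' z) + ψ₂ * nsd y' z) := by
  rw [cHess_rad hψ hψ₁]
  refine (MX_rad hq _ _ h2 _).trans (le_of_eq ?_)
  congr 3
  unfold nsd
  refine Finset.sum_congr rfl fun j _ => ?_
  rw [RCLike.norm_conj]

end Vale.Agent.P284.H885.D
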