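import Vale.Agent.P284.H885.D.Loc3

/-!
# P284, project D: the local module, functions plurisubharmonic along the fibres; the radial kernel
-/

open scoped ContDiff ComplexOrder ComplexConjugate Topology Matrix
open MeasureTheory Set Filter

noncomputable section

namespace Vale.Agent.P284.H885.D

open Matrix Vale.Agent.P272.K Vale.Agent.P284.H650 Vale.Agent.P284.H66.S7 Vale.Agent.P284.H501.K
  Vale.Agent.P284.H894.V Vale.Agent.P284.H402.A

variable {n q : ℕ} {G : Cm n → Cm q} {z : Cm n}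

/-! ### The form `AA` is a multiple of a projection -/

theorem AA_mul_T (J : Matrix (Fin q) (Fin n) ℂ) :
    AA (1 : Matrix (Fin n) (Fin n) ℂ) Jᵀ 0 * Jᵀ = 0 := by
  rw [AA_eq, Matrix.sub_mul, Matrix.smul_mul, Matrix.one_mul]
  have h : Jᵀ * (Jᵀᴴ * Jᵀ).adjugate * Jᵀᴴ * Jᵀ = (Jᵀᴴ * Jᵀ).det • Jᵀ := by
    rw [Matrix.mul_assoc, Matrix.mul_assoc, Matrix.adjugate_mul, Matrix.mul_smul, Matrix.mul_one]
  rw [h, sub_self]

theorem AA_herm (J : Matrix (Fin q) (Fin n) ℂ) :
    (AA (1 : Matrix (Fin n) (Fin n) ℂ) Jᵀ 0)ᴴ = AA (1 : Matrix (Fin n) (Fin n) ℂ) Jᵀ 0 :=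
  (H279.a2Stmt.herm 1 Jᵀ 0 Matrix.PosDef.one le_rfl).1

theorem T_mul_AA (J : Matrix (Fin q) (Fin n) ℂ) :
    Jᵀᴴ * AA (1 : Matrix (Fin n) (Fin n) ℂ) Jᵀ 0 = 0 := by
  have h := congrArg Matrix.conjTranspose (AA_mul_T J)
  rwa [Matrix.conjTranspose_mul, AA_herm, Matrix.conjTranspose_zero] at h

theorem AA_sq (J : Matrix (Fin q) (Fin n) ℂ) :
    AA (1 : Matrix (Fin n) (Fin n) ℂ) Jᵀ 0 * AA (1 : Matrix (Fin n) (Fin n) ℂ) Jᵀ 0 =
      (Jᵀᴴ * Jᵀ).det • AA (1 : Matrix (Fin n) (Fin n) ℂ) Jᵀ 0 := by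
  have h := congrArg (fun Y => Y * AA (1 : Matrix (Fin n) (Fin n) ℂ) Jᵀ 0) (AA_eq J)
  rw [h, Matrix.sub_mul, Matrix.smul_mul, Matrix.one_mul, Matrix.mul_assoc, T_mul_AA,
    Matrix.mul_zero, sub_zero]

/-- a form semipositive on the kernel of `J` has nonnegative trace along the fibres -/
theorem tr_AA_nonneg (J : Matrix (Fin q) (Fin n) ℂ) (x : Matrix (Fin n) (Fin n) ℂ)
    (hx : ∀ ξ : Fin n → ℂ, J *ᵥ ξ = 0 → 0 ≤ (∑ j, ∑ l, x j l * ξ j * conj (ξ l)).re) :
    0 ≤ (AA (1 : Matrix (Fin n) (Fin n) ℂ) Jᵀ 0 * x).trace.re := by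
  set A := AA (1 : Matrix (Fin n) (Fin n) ℂ) Jᵀ 0 with hA
  have hAh : Aᴴ = A := AA_herm J
  by_cases h0 : DT J = 0
  · rw [hA, H279.a2Stmt.zero 1 Jᵀ Matrix.PosDef.one h0, Matrix.zero_mul, Matrix.trace_zero]
    exact le_rfl
  · have hd : (Jᵀᴴ * Jᵀ).det = ((DT J : ℝ) : ℂ) := by
      have hps : (Jᵀᴴ * Jᵀ).PosSemidef := Matrix.posSemidef_conjTranspose_mul_self _
      have := hps.det_nonneg
      rw [Complex.le_def] at this
      rw [DT, DD, TT_zero, inv_one, Matrix.mul_one]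
      exact Complex.ext rfl (by simpa using this.2.symm)
    have h1 : (A * x * A).trace = ((DT J : ℝ) : ℂ) * (A * x).trace := by
      rw [Matrix.trace_mul_comm, ← Matrix.mul_assoc, AA_sq, hd, Matrix.smul_mul, Matrix.trace_smul,
        smul_eq_mul]
    have h2 : 0 ≤ (A * x * A).trace.re := by
      rw [Matrix.trace, Complex.re_sum]
      refine Finset.sum_nonneg fun i _ => ?_
      have h3 : J *ᵥ (fun l => conj (A l i)) = 0 := by
        have h4 := T_mul_AA J
        funext k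
        have h5 := congrFun (congrFun h4 k) i
        rw [Matrix.mul_apply, Matrix.zero_apply] at h5
        rw [mulVec, dotProduct, Pi.zero_apply]
        have h6 := congrArg (starRingEnd ℂ) h5
        rw [map_sum, map_zero] at h6
        rw [← h6]
        refine Finset.sum_congr rfl fun l _ => ?_
        rw [map_mul, Matrix.conjTranspose_apply, Matrix.transpose_apply]
        congr 1
        exact (Complex.conj_conj _).symm
      have h7 := hx _ h3
      refine h7.trans (le_of_eq ?_)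
      congr 1
      rw [Matrix.diag_apply, Matrix.mul_apply]
      simp only [Complex.conj_conj]
      rw [Finset.sum_comm]
      refine Finset.sum_congr rfl fun l _ => ?_
      rw [Matrix.mul_apply, Finset.sum_mul]
      refine Finset.sum_congr rfl fun j _ => ?_
      have h8 : A i j = conj (A j i) := by
        conv_lhs => rw [← hAh]
        rw [Matrix.conjTranspose_apply]; rfl
      rw [h8]
      ring
    rw [h1, Complex.re_ofReal_mul] at h2
    exact nonneg_of_mul_nonneg_right h2 (lt_of_le_of_ne (DT_nonneg J) (Ne.symm h0))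

theorem JF_mulVec (hG : HolV G z) (ξ : Cm n) : JF G z *ᵥ ξ = fderiv ℂ G z ξ := by
  have hd := holV_diff hG
  funext b
  have h1 : ∀ l, JF G z b l = fderiv ℂ G z (Pi.single l 1) b := by
    intro l
    rw [JF, Matrix.of_apply, Vale.Agent.P272.K.dz_of_holo (hG b).self_of_nhds]
    have := (hasFDerivAt_pi'.1 hd.hasFDerivAt b).fderiv
    rw [this]; rfl
  have h2 : ξ = ∑ l, ξ l • (Pi.single l (1 : ℂ) : Cm n) := by
    conv_lhs => rw [← Finset.univ_sum_single ξ]
    refine Finset.sum_congr rfl fun l _ => ?_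
    rw [← Pi.single_smul, smul_eq_mul, mul_one]
  rw [mulVec, dotProduct]
  conv_rhs => rw [h2, map_sum]
  rw [Finset.sum_apply]
  refine Finset.sum_congr rfl fun l _ => ?_
  rw [map_smul, Pi.smul_apply, smul_eq_mul, h1, mul_comm]

theorem MX_psh (hq : q < n) (hG : HolV G z) (x : Matrix (Fin n) (Fin n) ℂ)
    (hx : ∀ ξ : Fin n → ℂ, fderiv ℂ G z ξ = 0 → 0 ≤ (∑ j, ∑ l, x j l * ξ j * conj (ξ l)).re) :
    0 ≤ (MX hq G z x).re := by
  rw [MX_tr hq]
  have : (((n - q - 1).factorial : ℂ)) = (((n - q - 1).factorial : ℝ) : ℂ) := by push_cast; rfl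
  rw [this, Complex.re_ofReal_mul]
  refine mul_nonneg (by positivity) (tr_AA_nonneg _ _ fun ξ hξ => hx ξ ?_)
  rw [← JF_mulVec hG, hξ]

end Vale.Agent.P284.H885.D
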