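import Mathlib

/-!
# P284, project D: the radial kernel of the local module
-/

open scoped ContDiff Topology
open MeasureTheory Set Filter

noncomputable section

namespace Vale.Agent.P284.H885.D

/-- the derivative of the smooth transition is bounded -/
theorem exists_C1 : ∃ C : ℝ, 0 < C ∧ ∀ x, deriv Real.smoothTransition x ≤ C := by
  have hc : Continuous (deriv Real.smoothTransition) :=
    (Real.smoothTransition.contDiff (n := 1)).continuous_deriv (by norm_num)
  obtain ⟨C, hC⟩ := (isCompact_Icc (a := (0 : ℝ)) (b := 1)).exists_bound_of_continuousOn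
    hc.continuousOn
  refine ⟨max C 1, lt_max_of_lt_right one_pos, fun x => ?_⟩
  by_cases hx : x ∈ Icc (0 : ℝ) 1
  · exact ((le_abs_self _).trans (hC x hx)).trans (le_max_left _ _)
  · have h0 : deriv Real.smoothTransition x = 0 := by
      rw [mem_Icc, not_and_or, not_le, not_le] at hx
      rcases hx with hx | hx
      · have h1 : Real.smoothTransition =ᶠ[𝓝 x] fun _ => 0 := by
          filter_upwards [isOpen_Iio.mem_nhds hx] with y hy
          exact Real.smoothTransition.zero_of_nonpos (le_of_lt hy)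
        rw [h1.deriv_eq, deriv_const]
      · have h1 : Real.smoothTransition =ᶠ[𝓝 x] fun _ => 1 := by
          filter_upwards [isOpen_Ioi.mem_nhds hx] with y hy
          exact Real.smoothTransition.one_of_one_le (le_of_lt hy)
        rw [h1.deriv_eq, deriv_const]
    rw [h0]
    exact (zero_le_one).trans (le_max_right _ _)

/-- the cut-off -/
def chi (ρ s : ℝ) : ℝ := Real.smoothTransition (2 - 4 * s / ρ)

/-- its derivative -/
def chi' (ρ s : ℝ) : ℝ := -(4 / ρ) * deriv Real.smoothTransition (2 - 4 * s / ρ)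

theorem chi_smooth (ρ : ℝ) : ContDiff ℝ ∞ (chi ρ) := by
  refine (Real.smoothTransition.contDiff (n := ⊤)).comp ?_
  exact contDiff_const.sub ((contDiff_const.mul contDiff_id).div_const _)

theorem chi_deriv (ρ s : ℝ) : HasDerivAt (chi ρ) (chi' ρ s) s := by
  have h1 : HasDerivAt (fun s : ℝ => 2 - 4 * s / ρ) (-(4 / ρ)) s := by
    have := (((hasDerivAt_id s).const_mul 4).div_const ρ).const_sub 2
    simpa using this
  have h2 : HasDerivAt Real.smoothTransition
      (deriv Real.smoothTransition (2 - 4 * s / ρ)) (2 - 4 * s / ρ) :=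
    (((Real.smoothTransition.contDiff (n := 1)).differentiable (by norm_num)) _).hasDerivAt
  have h3 := h2.comp s h1
  rw [mul_comm] at h3
  exact h3

theorem chi_nonneg (ρ s : ℝ) : 0 ≤ chi ρ s := Real.smoothTransition.nonneg _

theorem chi_le_one (ρ s : ℝ) : chi ρ s ≤ 1 := Real.smoothTransition.le_one _

theorem chi_one {ρ s : ℝ} (hρ : 0 < ρ) (hs : s ≤ ρ / 4) : chi ρ s = 1 := by
  refine Real.smoothTransition.one_of_one_le ?_
  have : 4 * s / ρ ≤ 1 := by rw [div_le_one hρ]; linarith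
  linarith

theorem chi_zero {ρ s : ℝ} (hρ : 0 < ρ) (hs : ρ / 2 ≤ s) : chi ρ s = 0 := by
  refine Real.smoothTransition.zero_of_nonpos ?_
  have : 2 ≤ 4 * s / ρ := by rw [le_div_iff₀ hρ]; linarith
  linarith

theorem chi'_nonpos {ρ : ℝ} (hρ : 0 < ρ) (s : ℝ) : chi' ρ s ≤ 0 := by
  have h1 : 0 ≤ deriv Real.smoothTransition (2 - 4 * s / ρ) :=
    Real.smoothTransition.monotone.deriv_nonneg
  have h2 : 0 < 4 / ρ := by positivity
  rw [chi', neg_mul]
  have := mul_nonneg h2.le h1
  linarith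

/-- `-t χ'(t) (t + η)^{-d} ≤ C ρ^{-d}` -/
theorem chi'_bound (d : ℕ) : ∃ C : ℝ, 0 < C ∧ ∀ ρ η s : ℝ, 0 < ρ → 0 < η → 0 ≤ s →
    -(s * chi' ρ s) / (s + η) ^ d ≤ C / ρ ^ d := by
  obtain ⟨C₁, hC₁, hC⟩ := exists_C1
  refine ⟨2 * C₁ * 4 ^ d, by positivity, fun ρ η s hρ hη hs => ?_⟩
  by_cases h1 : s ≤ ρ / 2
  · by_cases h2 : ρ / 4 ≤ s
    · have e1 : -(s * chi' ρ s) ≤ 2 * C₁ := by
        have h3 : -(s * chi' ρ s) = s * (4 / ρ) * deriv Real.smoothTransition (2 - 4 * s / ρ) := by
          rw [chi']; ring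
        have h4 : s * (4 / ρ) ≤ 2 := by
          rw [← mul_div_assoc, div_le_iff₀ hρ]; linarith
        have h5 : 0 ≤ deriv Real.smoothTransition (2 - 4 * s / ρ) :=
          Real.smoothTransition.monotone.deriv_nonneg
        rw [h3]
        calc s * (4 / ρ) * deriv Real.smoothTransition (2 - 4 * s / ρ)
            ≤ 2 * deriv Real.smoothTransition (2 - 4 * s / ρ) :=
              mul_le_mul_of_nonneg_right h4 h5
          _ ≤ 2 * C₁ := by linarith [hC (2 - 4 * s / ρ)]
      have e2 : (ρ / 4) ^ d ≤ (s + η) ^ d := pow_le_pow_left₀ (by positivity) (by linarith) d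
      have e3 : 0 < (s + η) ^ d := by positivity
      have e4 : 0 < (ρ / 4) ^ d := by positivity
      calc -(s * chi' ρ s) / (s + η) ^ d ≤ 2 * C₁ / (s + η) ^ d :=
            div_le_div_of_nonneg_right e1 e3.le
        _ ≤ 2 * C₁ / (ρ / 4) ^ d := div_le_div_of_nonneg_left (by positivity) e4 e2
        _ = 2 * C₁ * 4 ^ d / ρ ^ d := by
            rw [div_pow, div_div_eq_mul_div]
    · -- χ = 1 near s
      have h3 : chi' ρ s = 0 := by
        have h4 : chi ρ =ᶠ[𝓝 s] fun _ => 1 := by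
          filter_upwards [isOpen_Iio.mem_nhds (lt_of_not_ge h2)] with y hy
          exact chi_one hρ (le_of_lt hy)
        rw [← (chi_deriv ρ s).deriv, h4.deriv_eq, deriv_const]
      rw [h3, mul_zero, neg_zero, zero_div]
      positivity
  · have h3 : chi' ρ s = 0 := by
      have h4 : chi ρ =ᶠ[𝓝 s] fun _ => 0 := by
        filter_upwards [isOpen_Ioi.mem_nhds (lt_of_not_ge h1)] with y hy
        exact chi_zero hρ (le_of_lt hy)
      rw [← (chi_deriv ρ s).deriv, h4.deriv_eq, deriv_const]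
    rw [h3, mul_zero, neg_zero, zero_div]
    positivity

section
variable (ρ η : ℝ) (d : ℕ)

/-- the density of the kernel -/
def phi (s : ℝ) : ℝ := chi ρ s / (s + η) ^ d

/-- its derivative -/
def phi' (s : ℝ) : ℝ := chi' ρ s / (s + η) ^ d - d * chi ρ s / (s + η) ^ (d + 1)

/-- the radial function -/
def HR (t : ℝ) : ℝ := ∫ s in t..ρ, phi ρ η d s

variable {ρ η d}

theorem phi_smooth (t : ℝ) (ht : -η < t) : ContDiffAt ℝ ∞ (phi ρ η d) t := by
  unfold phi
  refine (chi_smooth ρ).contDiffAt.div ?_ ?_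
  · exact ((contDiff_id.add contDiff_const).pow d).contDiffAt
  · have : 0 < t + η := by linarith
    positivity

theorem phi_deriv (t : ℝ) (ht : -η < t) : HasDerivAt (phi ρ η d) (phi' ρ η d t) t := by
  have hpos : 0 < t + η := by linarith
  have h1 : HasDerivAt (fun s : ℝ => (s + η) ^ d) (d * (t + η) ^ (d - 1) * 1) t :=
    ((hasDerivAt_id t).add_const η).pow d
  have h2 := (chi_deriv ρ t).div h1 (by positivity)
  refine h2.congr_deriv ?_
  rw [phi']
  rcases d with _ | d
  · simp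
  · rw [Nat.add_sub_cancel]
    have h3 : (t + η) ≠ 0 := hpos.ne'
    field_simp
    push_cast
    ring

theorem phi_nonneg (hη : 0 < η) (t : ℝ) (ht : 0 ≤ t) : 0 ≤ phi ρ η d t :=
  div_nonneg (chi_nonneg _ _) (by positivity)

theorem phi'_nonpos (hρ : 0 < ρ) (hη : 0 < η) (t : ℝ) (ht : 0 ≤ t) : phi' ρ η d t ≤ 0 := by
  rw [phi']
  have h1 : chi' ρ t / (t + η) ^ d ≤ 0 := div_nonpos_of_nonpos_of_nonneg (chi'_nonpos hρ t)
    (by positivity)
  have h2 : 0 ≤ d * chi ρ t / (t + η) ^ (d + 1) :=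
    div_nonneg (mul_nonneg (by positivity) (chi_nonneg _ _)) (by positivity)
  linarith

theorem HR_deriv (hρ : 0 < ρ) (hη : 0 < η) (t : ℝ) (ht : -η < t) :
    HasDerivAt (HR ρ η d) (-phi ρ η d t) t := by
  have hsub : ∀ s ∈ uIcc t ρ, -η < s := by
    intro s hs
    have := hs.1
    rcases le_total t ρ with h | h
    · rw [inf_eq_left.2 h] at this; linarith
    · rw [inf_eq_right.2 h] at this; linarith
  refine intervalIntegral.integral_hasDerivAt_left ?_ ?_ (phi_smooth t ht).continuousAt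
  · exact ContinuousOn.intervalIntegrable fun s hs =>
      (phi_smooth s (hsub s hs)).continuousAt.continuousWithinAt
  · refine ContinuousOn.stronglyMeasurableAtFilter isOpen_Ioi (s := Ioi (-η))
      (fun s hs => (phi_smooth s hs).continuousAt.continuousWithinAt) t ht

theorem HR_smooth (hρ : 0 < ρ) (hη : 0 < η) (t : ℝ) (ht : -η < t) :
    ContDiffAt ℝ ∞ (HR ρ η d) t := by
  have h : ContDiffOn ℝ ∞ (HR ρ η d) (Ioi (-η)) := by
    rw [contDiffOn_infty_iff_deriv_of_isOpen isOpen_Ioi]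
    refine ⟨fun s hs => (HR_deriv hρ hη s hs).differentiableAt.differentiableWithinAt, ?_⟩
    intro s hs
    have h1 : ContDiffAt ℝ ∞ (fun s => -phi ρ η d s) s := (phi_smooth s hs).neg
    refine h1.contDiffWithinAt.congr_of_eventuallyEq ?_ (HR_deriv hρ hη s hs).deriv
    filter_upwards [self_mem_nhdsWithin] with y hy
    exact (HR_deriv hρ hη y hy).deriv
  exact h.contDiffAt (isOpen_Ioi.mem_nhds ht)

theorem HR_zero (hρ : 0 < ρ) (t : ℝ) (ht : ρ / 2 ≤ t) : HR ρ η d t = 0 := by
  rw [HR]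
  have h : EqOn (phi ρ η d) (fun _ => 0) (uIcc t ρ) := by
    intro s hs
    have h1 := hs.1
    have h2 : ρ / 2 ≤ s := by
      rcases le_total t ρ with h | h
      · rw [inf_eq_left.2 h] at h1; linarith
      · rw [inf_eq_right.2 h] at h1; linarith
    simp only [phi]
    rw [chi_zero hρ h2, zero_div]
  rw [intervalIntegral.integral_congr h]
  simp

theorem HR_nonneg (hρ : 0 < ρ) (hη : 0 < η) (t : ℝ) (ht : 0 ≤ t) : 0 ≤ HR ρ η d t := by
  rcases le_total t ρ with h | h
  · exact intervalIntegral.integral_nonneg h fun s hs => phi_nonneg hη s (ht.trans hs.1)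
  · rw [HR_zero hρ t (by linarith)]

/-- `d H' + t H'' ≤ -d χ η (t+η)^{-d-1} + C ρ^{-d}` -/
theorem HR_bound {C : ℝ} (hC : ∀ ρ η s : ℝ, 0 < ρ → 0 < η → 0 ≤ s →
    -(s * chi' ρ s) / (s + η) ^ d ≤ C / ρ ^ d) (hρ : 0 < ρ) (hη : 0 < η) (t : ℝ) (ht : 0 ≤ t) :
    d * -phi ρ η d t + -phi' ρ η d t * t ≤
      -(d * (chi ρ t * (η / (t + η) ^ (d + 1)))) + C / ρ ^ d := by
  have h1 := hC ρ η t hρ hη ht
  have hpos : t + η ≠ 0 := by positivity
  have h2 : d * -phi ρ η d t + -phi' ρ η d t * t =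
      -(d * (chi ρ t * (η / (t + η) ^ (d + 1)))) + -(t * chi' ρ t) / (t + η) ^ d := by
    rw [phi, phi']
    field_simp
    ring
  rw [h2]
  linarith

end

end Vale.Agent.P284.H885.D
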