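import Vale.Agent.P284.H885.D.Loc4
import Vale.Agent.P284.H885.D.Loc5

/-!
# P284, project D: the local module, the mean value inequality along the fibres
-/

open scoped ContDiff ComplexOrder ComplexConjugate Topology Matrix
open MeasureTheory Set Filter

noncomputable section

namespace Vale.Agent.P284.H885.D

open Matrix Vale.Agent.P272.K Vale.Agent.P284.H650 Vale.Agent.P284.H66.S7 Vale.Agent.P284.H501.K
  Vale.Agent.P284.H894.V Vale.Agent.P284.H402.A

variable {n q : ℕ} {U : Set (Cm n)} {G : Cm n → Cm q}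

/-- the kernel -/
def kk (ρ η : ℝ) (d : ℕ) (y' z : Cm n) : ℝ :=
  chi ρ (nsd y' z) * (η / (nsd y' z + η) ^ (d + 1))

theorem kk_nonneg {ρ η : ℝ} (hη : 0 < η) (d : ℕ) (y' z : Cm n) : 0 ≤ kk ρ η d y' z := by
  have := nsd_nonneg y' z
  exact mul_nonneg (chi_nonneg _ _) (by positivity)

theorem kk_le {ρ η : ℝ} (hη : 0 < η) (d : ℕ) (y' z : Cm n) :
    kk ρ η d y' z ≤ η / η ^ (d + 1) := by
  have h0 := nsd_nonneg y' z
  have h1 : η / (nsd y' z + η) ^ (d + 1) ≤ η / η ^ (d + 1) :=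
    div_le_div_of_nonneg_left hη.le (by positivity) (pow_le_pow_left₀ hη.le (by linarith) _)
  calc kk ρ η d y' z ≤ 1 * (η / (nsd y' z + η) ^ (d + 1)) :=
        mul_le_mul_of_nonneg_right (chi_le_one _ _) (by positivity)
    _ ≤ _ := by rw [one_mul]; exact h1

theorem kk_cont {ρ η : ℝ} (hη : 0 < η) (d : ℕ) (y' : Cm n) : Continuous (kk ρ η d y') := by
  unfold kk
  have h1 : Continuous (nsd y') := (nsd_smooth y').continuous
  refine ((chi_smooth ρ).continuous.comp h1).mul (continuous_const.div ((h1.add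
    continuous_const).pow _) fun z => ?_)
  have := nsd_nonneg y' z
  positivity

theorem int_kk {ρ η : ℝ} (hη : 0 < η) (d : ℕ) (y' : Cm n) {F : Cm n → ℝ}
    (hF : IntegrableOn F U) : IntegrableOn (fun z => F z * kk ρ η d y' z) U := by
  refine Integrable.mul_bdd (c := η / η ^ (d + 1)) hF (kk_cont hη d y').aestronglyMeasurable ?_
  refine Eventually.of_forall fun z => ?_
  rw [Real.norm_of_nonneg (kk_nonneg hη d y' z)]
  exact kk_le hη d y' z

theorem mvi {C : ℝ} {d : ℕ} (hC : ∀ ρ η s : ℝ, 0 < ρ → 0 < η → 0 ≤ s →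
    -(s * chi' ρ s) / (s + η) ^ d ≤ C / ρ ^ d) (hqd : q + d = n) (hd : 0 < d)
    (hU : IsOpen U) (hG : ∀ z ∈ U, HolV G z) {κ : Cm q → ℝ} (hκ : ContDiff ℝ ∞ κ)
    (hκ0 : ∀ Z, 0 ≤ κ Z) {f : Cm n → ℝ} (hf : ∀ z ∈ U, ContDiffAt ℝ ∞ f z ∧ 0 ≤ f z ∧
      ∀ ξ : Cm n, fderiv ℂ G z ξ = 0 → 0 ≤ (∑ j, ∑ l, cHess f z j l * ξ j * conj (ξ l)).re)
    {y' : Cm n} {ρ η : ℝ} (hρ : 0 < ρ) (hη : 0 < η) {K : Set (Cm n)} (hK : IsCompact K)
    (hKU : K ⊆ U) (hout : ∀ z ∈ U, z ∉ K → nsd y' z ≤ ρ / 2 →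
      (fun y => f y * κ (G y)) =ᶠ[𝓝 z] fun _ => 0)
    (hint : IntegrableOn (fun z => f z * κ (G z) * DT (JF G z)) U) :
    d * ∫ z in U, f z * κ (G z) * DT (JF G z) * kk ρ η d y' z ≤
      C / ρ ^ d * ∫ z in U, f z * κ (G z) * DT (JF G z) := by
  have hq : q < n := by omega
  have hnq : n - q = d := by omega
  have ht : ∀ z : Cm n, -η < nsd y' z := fun z => by linarith [nsd_nonneg y' z]
  have hHs : ∀ z ∈ U, ContDiffAt ℝ ∞ (fun y => HR ρ η d (nsd y' y)) z := fun z _ =>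
    (HR_smooth hρ hη _ (ht z)).comp z (nsd_smooth y').contDiffAt
  obtain ⟨s1, s2, s3⟩ := swapU (m := fun y => κ (G y)) (f := f)
    (H := fun y => HR ρ η d (nsd y' y)) hU hq hG (fun z hz => bas_comp hq (hG z hz) hκ)
    (fun z hz => (hf z hz).1) hHs hK hKU (fun z hz hzK => by
      rcases le_or_gt (nsd y' z) (ρ / 2) with h | h
      · exact Or.inl (hout z hz hzK h)
      · right
        filter_upwards [((nsd_smooth y').continuous.isOpen_preimage _ isOpen_Ioi).mem_nhds h]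
          with y hy
        exact HR_zero hρ _ (le_of_lt hy))
  have h0 : 0 ≤ ∫ z in U, f z * κ (G z) *
      (MX hq G z (cHess (fun y => HR ρ η d (nsd y' y)) z)).re := by
    rw [s3]
    refine setIntegral_nonneg hU.measurableSet fun z hz => ?_
    exact mul_nonneg (mul_nonneg (HR_nonneg hρ hη _ (nsd_nonneg _ _)) (hκ0 _))
      (MX_psh hq (hG z hz) _ (hf z hz).2.2)
  set F : Cm n → ℝ := fun z => f z * κ (G z) * DT (JF G z) with hF
  have hFk := int_kk (ρ := ρ) hη d y' hint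
  have h1 : ∫ z in U, f z * κ (G z) *
      (MX hq G z (cHess (fun y => HR ρ η d (nsd y' y)) z)).re ≤
      ∫ z in U, ((d - 1).factorial : ℝ) * (-(d * (F z * kk ρ η d y' z)) + C / ρ ^ d * F z) := by
    refine setIntegral_mono_on s1 ?_ hU.measurableSet fun z hz => ?_
    · exact (((hFk.const_mul (d : ℝ)).neg).add (hint.const_mul (C / ρ ^ d))).const_mul _
    · have e1 := MX_radial (G := G) (z := z) hq (ψ := HR ρ η d) (ψ₁ := fun s => -phi ρ η d s)
        (ψ₂ := -phi' ρ η d (nsd y' z)) (y' := y') (by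
          filter_upwards [isOpen_Ioi.mem_nhds (ht z)] with s hs
          exact HR_deriv hρ hη s hs) ((phi_deriv _ (ht z)).neg)
        (by have := phi'_nonpos (d := d) hρ hη (nsd y' z) (nsd_nonneg _ _); linarith)
      have e2 := HR_bound hC hρ hη (nsd y' z) (nsd_nonneg _ _)
      rw [hnq] at e1
      have e3 : 0 ≤ f z * κ (G z) := mul_nonneg (hf z hz).2.1 (hκ0 _)
      have e4 : 0 ≤ ((d - 1).factorial : ℝ) * DT (JF G z) :=
        mul_nonneg (by positivity) (DT_nonneg _)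
      calc f z * κ (G z) * (MX hq G z (cHess (fun y => HR ρ η d (nsd y' y)) z)).re
          ≤ f z * κ (G z) * (((d - 1).factorial : ℝ) * DT (JF G z) *
            (-(d * (chi ρ (nsd y' z) * (η / (nsd y' z + η) ^ (d + 1)))) + C / ρ ^ d)) :=
            mul_le_mul_of_nonneg_left (e1.trans (mul_le_mul_of_nonneg_left e2 e4)) e3
        _ = _ := by
            simp only [hF, kk]
            ring
  have h2 : ∫ z in U, ((d - 1).factorial : ℝ) *
      (-(d * (F z * kk ρ η d y' z)) + C / ρ ^ d * F z) =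
      ((d - 1).factorial : ℝ) * (-(d * ∫ z in U, F z * kk ρ η d y' z) +
        C / ρ ^ d * ∫ z in U, F z) := by
    have i1 : Integrable (fun z => -(d * (F z * kk ρ η d y' z))) (volume.restrict U) :=
      (hFk.const_mul (d : ℝ)).neg
    have i2 : Integrable (fun z => C / ρ ^ d * F z) (volume.restrict U) :=
      hint.const_mul (C / ρ ^ d)
    rw [integral_const_mul, integral_add i1 i2, integral_neg, integral_const_mul,
      integral_const_mul]
  rw [h2] at h1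
  have h3 : (0 : ℝ) < ((d - 1).factorial : ℝ) := by positivity
  have h4 := nonneg_of_mul_nonneg_right (h0.trans h1) h3
  linarith

/-- the mean value inequality, all dimensions -/
theorem mv (d : ℕ) : ∃ C : ℝ, 0 < C ∧ ∀ (n q : ℕ), q + d = n →
    ∀ (U : Set (Cm n)) (G : Cm n → Cm q), IsOpen U → (∀ z ∈ U, HolV G z) →
    ∀ (κ : Cm q → ℝ), ContDiff ℝ ∞ κ → (∀ Z, 0 ≤ κ Z) →
    ∀ (f : Cm n → ℝ), (∀ z ∈ U, ContDiffAt ℝ ∞ f z ∧ 0 ≤ f z ∧
      ∀ ξ : Cm n, fderiv ℂ G z ξ = 0 → 0 ≤ (∑ j, ∑ l, cHess f z j l * ξ j * conj (ξ l)).re) →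
    ∀ (y' : Cm n) (ρ η : ℝ), 0 < ρ → 0 < η → ∀ (K : Set (Cm n)), IsCompact K → K ⊆ U →
    (∀ z ∈ U, z ∉ K → nsd y' z ≤ ρ / 2 → (fun y => f y * κ (G y)) =ᶠ[𝓝 z] fun _ => 0) →
    IntegrableOn (fun z => f z * κ (G z) * DT (JF G z)) U →
    ∫ z in U, f z * κ (G z) * DT (JF G z) * kk ρ η d y' z ≤
      C / ρ ^ d * ∫ z in U, f z * κ (G z) * DT (JF G z) := by
  obtain ⟨C, hC0, hC⟩ := chi'_bound d
  rcases Nat.eq_zero_or_pos d with hd | hd
  · subst hd
    refine ⟨1, one_pos, ?_⟩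
    intro n q _ U G hU hG κ hκ hκ0 f hf y' ρ η hρ hη K _ _ _ hint
    rw [pow_zero, div_one, one_mul]
    refine setIntegral_mono_on (int_kk hη 0 y' hint) hint hU.measurableSet fun z hz => ?_
    have e1 : 0 ≤ f z * κ (G z) * DT (JF G z) :=
      mul_nonneg (mul_nonneg (hf z hz).2.1 (hκ0 _)) (DT_nonneg _)
    have e2 : kk ρ η 0 y' z ≤ 1 := by
      refine (kk_le hη 0 y' z).trans (le_of_eq ?_)
      rw [zero_add, pow_one, div_self hη.ne']
    calc _ ≤ f z * κ (G z) * DT (JF G z) * 1 := mul_le_mul_of_nonneg_left e2 e1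
      _ = _ := mul_one _
  · refine ⟨C, hC0, ?_⟩
    intro n q hqd U G hU hG κ hκ hκ0 f hf y' ρ η hρ hη K hK hKU hout hint
    have h := mvi hC hqd hd hU hG hκ hκ0 hf hρ hη hK hKU hout hint
    have h1 : (1 : ℝ) ≤ d := by exact_mod_cast hd
    have h2 : 0 ≤ ∫ z in U, f z * κ (G z) * DT (JF G z) * kk ρ η d y' z :=
      setIntegral_nonneg hU.measurableSet fun z hz => mul_nonneg
        (mul_nonneg (mul_nonneg (hf z hz).2.1 (hκ0 _)) (DT_nonneg _)) (kk_nonneg hη d y' z)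
    nlinarith

end Vale.Agent.P284.H885.D
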