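import Vale.Agent.P284.H885.D.Loc4
import Vale.Agent.P284.H451.CntA

/-!
# P284, project D: the local module, the linear model
-/

open scoped ContDiff ComplexOrder ComplexConjugate Topology Matrix ENNReal
open MeasureTheory Set Filter

noncomputable section

namespace Vale.Agent.P284.H885.D

open Matrix Vale.Agent.P272.K Vale.Agent.P284.H402.A Vale.Agent.P284.H650

variable {q d : ℕ}

/-- an orthonormal basis of the kernel of `J` -/
theorem exists_B (J : Matrix (Fin q) (Fin (q + d)) ℂ) (hJ : Function.Surjective J.mulVec) :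
    ∃ B : Matrix (Fin d) (Fin (q + d)) ℂ, B * Bᴴ = 1 ∧ J * Bᴴ = 0 := by
  let L : EuclideanSpace ℂ (Fin (q + d)) →ₗ[ℂ] (Fin q → ℂ) :=
    J.mulVecLin ∘ₗ (WithLp.linearEquiv 2 ℂ (Fin (q + d) → ℂ)).toLinearMap
  have hL : ∀ v, L v = J *ᵥ (WithLp.ofLp v) := fun v => rfl
  have hLs : Function.Surjective L := by
    intro y
    obtain ⟨x, hx⟩ := hJ y
    exact ⟨WithLp.toLp 2 x, hx⟩
  have hdim : Module.finrank ℂ (LinearMap.ker L) = d := by
    have h1 := LinearMap.finrank_range_add_finrank_ker L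
    rw [LinearMap.range_eq_top.2 hLs, finrank_top, Module.finrank_fin_fun, finrank_euclideanSpace,
      Fintype.card_fin] at h1
    omega
  let b : OrthonormalBasis (Fin d) ℂ (LinearMap.ker L) :=
    (stdOrthonormalBasis ℂ (LinearMap.ker L)).reindex (finCongr hdim)
  refine ⟨Matrix.of fun j l => conj ((b j : EuclideanSpace ℂ (Fin (q + d))) l), ?_, ?_⟩
  · ext i j
    rw [Matrix.mul_apply, Matrix.one_apply]
    have h1 := orthonormal_iff_ite.1 b.orthonormal i j
    rw [Submodule.coe_inner, PiLp.inner_apply] at h1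
    rw [← h1]
    refine Finset.sum_congr rfl fun l _ => ?_
    rw [Matrix.conjTranspose_apply, Matrix.of_apply, Matrix.of_apply]
    rw [RCLike.inner_apply]
    simp [mul_comm]
  · ext k j
    have h1 : L (b j : EuclideanSpace ℂ (Fin (q + d))) = 0 := (b j).2
    have h2 := congrFun (hL (b j : EuclideanSpace ℂ (Fin (q + d)))) k
    rw [h1] at h2
    rw [Matrix.mul_apply, Matrix.zero_apply]
    rw [mulVec, dotProduct] at h2
    refine Eq.trans ?_ h2.symm
    refine Finset.sum_congr rfl fun l _ => ?_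
    rw [Matrix.conjTranspose_apply, Matrix.of_apply]
    congr 1
    exact Complex.conj_conj _

/-- `|v|²` -/
def nq {m : ℕ} (v : Fin m → ℂ) : ℝ := ∑ j, ‖v j‖ ^ 2

theorem nq_eq {m : ℕ} (v : Fin m → ℂ) : ((nq v : ℝ) : ℂ) = star v ⬝ᵥ v := sum_sq_eq v

theorem nq_nonneg {m : ℕ} (v : Fin m → ℂ) : 0 ≤ nq v := Finset.sum_nonneg fun _ _ => sq_nonneg _

theorem nq_le {m : ℕ} (v : Fin m → ℂ) : nq v ≤ m * ‖v‖ ^ 2 := by
  have : nq v ≤ ∑ _j : Fin m, ‖v‖ ^ 2 := Finset.sum_le_sum fun j _ =>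
    pow_le_pow_left₀ (norm_nonneg _) (norm_le_pi_norm v j) 2
  simpa using this

theorem norm_sq_le_nq {m : ℕ} (v : Fin m → ℂ) : ‖v‖ ^ 2 ≤ nq v := by
  have h0 : ‖v‖ ≤ Real.sqrt (nq v) := by
    rw [pi_norm_le_iff_of_nonneg (Real.sqrt_nonneg _)]
    intro i
    refine Real.le_sqrt_of_sq_le ?_
    exact Finset.single_le_sum (f := fun i => ‖v i‖ ^ 2) (fun _ _ => sq_nonneg _)
      (Finset.mem_univ i)
  calc ‖v‖ ^ 2 ≤ Real.sqrt (nq v) ^ 2 := pow_le_pow_left₀ (norm_nonneg _) h0 2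
    _ = nq v := Real.sq_sqrt (nq_nonneg v)

theorem nq_add_le {m : ℕ} (v w : Fin m → ℂ) : nq (v + w) ≤ 2 * nq v + 2 * nq w := by
  unfold nq
  rw [Finset.mul_sum, Finset.mul_sum, ← Finset.sum_add_distrib]
  refine Finset.sum_le_sum fun j _ => ?_
  have h1 := norm_add_le (v j) (w j)
  have h2 : ‖(v + w) j‖ ≤ ‖v j‖ + ‖w j‖ := h1
  nlinarith [norm_nonneg ((v + w) j), norm_nonneg (v j), norm_nonneg (w j),
    sq_nonneg (‖v j‖ - ‖w j‖)]

theorem nq_BH {B : Matrix (Fin d) (Fin (q + d)) ℂ} (hB : B * Bᴴ = 1) (w : Fin d → ℂ) :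
    nq (Bᴴ *ᵥ w) = nq w := by
  have h : ((nq (Bᴴ *ᵥ w) : ℝ) : ℂ) = ((nq w : ℝ) : ℂ) := by
    rw [nq_eq, nq_eq, Matrix.star_mulVec, Matrix.conjTranspose_conjTranspose,
      ← Matrix.dotProduct_mulVec, Matrix.mulVec_mulVec, hB, Matrix.one_mulVec]
  exact_mod_cast h

/-- the square matrix with the rows of `J` and of `B` -/
def MJ (J : Matrix (Fin q) (Fin (q + d)) ℂ) (B : Matrix (Fin d) (Fin (q + d)) ℂ) :
    Matrix (Fin (q + d)) (Fin (q + d)) ℂ :=
  (Matrix.fromRows J B).submatrix finSumFinEquiv.symm id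

theorem MJ_mulVec (J : Matrix (Fin q) (Fin (q + d)) ℂ) (B : Matrix (Fin d) (Fin (q + d)) ℂ)
    (v : Fin (q + d) → ℂ) :
    MJ J B *ᵥ v = fun i => Sum.elim (J *ᵥ v) (B *ᵥ v) (finSumFinEquiv.symm i) := by
  funext i
  obtain ⟨s, rfl⟩ := finSumFinEquiv.surjective i
  rw [Equiv.symm_apply_apply]
  rcases s with a | b
  · simp [MJ, mulVec, dotProduct]
  · simp [MJ, mulVec, dotProduct]

theorem det_MJ {J : Matrix (Fin q) (Fin (q + d)) ℂ} {B : Matrix (Fin d) (Fin (q + d)) ℂ}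
    (hB : B * Bᴴ = 1) (hJB : J * Bᴴ = 0) : ‖(MJ J B).det‖ ^ 2 = DT J := by
  have h1 : MJ J B * (MJ J B)ᴴ = (Matrix.fromBlocks (J * Jᴴ) 0 0 1).submatrix
      finSumFinEquiv.symm finSumFinEquiv.symm := by
    have hBJ : B * Jᴴ = 0 := by
      have := congrArg Matrix.conjTranspose hJB
      rwa [Matrix.conjTranspose_mul, Matrix.conjTranspose_conjTranspose,
        Matrix.conjTranspose_zero] at this
    ext i j
    obtain ⟨s, rfl⟩ := finSumFinEquiv.surjective i
    obtain ⟨t, rfl⟩ := finSumFinEquiv.surjective j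
    rw [Matrix.submatrix_apply, Equiv.symm_apply_apply, Equiv.symm_apply_apply, Matrix.mul_apply]
    rcases s with a | a <;> rcases t with b | b
    · rw [Matrix.fromBlocks_apply₁₁, Matrix.mul_apply]
      refine Finset.sum_congr rfl fun l _ => ?_
      simp [MJ, Matrix.conjTranspose_apply]
    · rw [Matrix.fromBlocks_apply₁₂, ← hJB, Matrix.mul_apply]
      refine Finset.sum_congr rfl fun l _ => ?_
      simp [MJ, Matrix.conjTranspose_apply]
    · rw [Matrix.fromBlocks_apply₂₁, ← hBJ, Matrix.mul_apply]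
      refine Finset.sum_congr rfl fun l _ => ?_
      simp [MJ, Matrix.conjTranspose_apply]
    · rw [Matrix.fromBlocks_apply₂₂, ← hB, Matrix.mul_apply]
      refine Finset.sum_congr rfl fun l _ => ?_
      simp [MJ, Matrix.conjTranspose_apply]
  have h2 : (MJ J B).det * conj (MJ J B).det = (J * Jᴴ).det := by
    have h3 := congrArg Matrix.det h1
    rw [Matrix.det_mul, Matrix.det_conjTranspose, Matrix.det_submatrix_equiv_self,
      Matrix.det_fromBlocks_zero₂₁, Matrix.det_one, mul_one] at h3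
    exact h3
  rw [Complex.mul_conj, Complex.normSq_eq_norm_sq] at h2
  have h4 : DT J = (J * Jᴴ).det.re := by
    rw [DT_eq, ← Matrix.det_transpose (J * Jᴴ), Matrix.transpose_mul]
    rfl
  rw [h4, ← h2, Complex.ofReal_re]

end Vale.Agent.P284.H885.D
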