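import Vale.Agent.P284.H885.D.Loc

/-!
# P284, project D: the local module (E6), version with supports
-/

open scoped ContDiff ComplexOrder ComplexConjugate Topology Matrix
open MeasureTheory Set Filter Metric

noncomputable section

namespace Vale.Agent.P284.H885.D

open Matrix Vale.Agent.P272.K Vale.Agent.P284.H650 Vale.Agent.P284.H66.S7 Vale.Agent.P284.H402.A

theorem psd_sum {n : ℕ} {x : Matrix (Fin n) (Fin n) ℂ} (hx : x.PosSemidef) (ξ : Cm n) :
    0 ≤ (∑ j, ∑ l, x j l * ξ j * conj (ξ l)).re := by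
  have h := hx.re_dotProduct_nonneg (fun l => conj (ξ l))
  refine h.trans (le_of_eq ?_)
  change (star (fun l => conj (ξ l)) ⬝ᵥ x *ᵥ fun l => conj (ξ l)).re = _
  congr 1
  rw [dotProduct]
  refine Finset.sum_congr rfl fun j _ => ?_
  rw [mulVec, dotProduct, Finset.mul_sum]
  refine Finset.sum_congr rfl fun l _ => ?_
  rw [Pi.star_apply]
  have : star (conj (ξ j)) = ξ j := Complex.conj_conj _
  rw [this]
  ring

/-- **E6** with supports: `G` is analytic near the support of `f` only, `f` is plurisubharmonic near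
the points of the fibre in its support. -/
theorem loc_supp (q d : ℕ) : ∃ c : ℝ, 0 < c ∧ ∀ (n : ℕ), q + d = n → ∀ κ : Cm q → ℝ,
    ContDiff ℝ ∞ κ → (∀ Z, 0 ≤ κ Z) → HasCompactSupport κ → ∫ Z, κ Z = 1 →
    ∀ (G : Cm n → Cm q) (f : Cm n → ℝ) (y' : Cm n) (r : ℝ), 0 < r →
    (∀ y ∈ closedBall y' r, y ∈ tsupport f → AnalyticAt ℂ G y) →
    (∀ y ∈ closedBall y' r, ContDiffAt ℝ ∞ f y) → (∀ y, 0 ≤ f y) →
    (∀ y ∈ closedBall y' r, y ∈ tsupport f → G y = G y' →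
      ∀ᶠ p in 𝓝 y, (cHess f p).PosSemidef) →
    Function.Surjective (fderiv ℂ G y') →
    ∀ᶠ ε in 𝓝[>] (0 : ℝ), c * r ^ (2 * d) * f y' ≤ ∫ y in closedBall y' r,
      ε⁻¹ ^ (2 * q) * κ (ε⁻¹ • (G y - G y')) * f y * (JF G y * (JF G y)ᴴ).det.re := by
  obtain ⟨c, hc, hloc⟩ := loc q d
  refine ⟨c, hc, ?_⟩
  intro n hn κ hκs hκ0 hκc hκ1 G f y' r hr hG hf hf0 hpsh hsurj
  by_cases hfy : f y' = 0
  · filter_upwards [self_mem_nhdsWithin] with ε hε
    have hε0 : (0 : ℝ) < ε := hε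
    rw [hfy, mul_zero]
    refine setIntegral_nonneg measurableSet_closedBall fun y _ => ?_
    rw [← DT_eq']
    exact mul_nonneg (mul_nonneg (mul_nonneg (by positivity) (hκ0 _)) (hf0 _)) (DT_nonneg _)
  set N : Set (Cm n) := {y | AnalyticAt ℂ G y} ∩ {y | ∀ᶠ p in 𝓝 y, (cHess f p).PosSemidef} with hN
  have hNo : IsOpen N := (isOpen_analyticAt ℂ G).inter isOpen_setOf_eventually_nhds
  have hy's : y' ∈ tsupport f := subset_tsupport f hfy
  have hyb : y' ∈ closedBall y' r := mem_closedBall_self hr.le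
  refine hloc n hn κ hκs hκ0 hκc hκ1 G f N y' r hr hNo
    ⟨hG y' hyb hy's, hpsh y' hyb hy's rfl⟩ (fun y hy hyb => ⟨hy.1, hf y hyb, hf0 y,
      fun ξ _ => psd_sum hy.2.self_of_nhds ξ⟩) ?_ hsurj
  obtain ⟨R, hR0, hR⟩ : ∃ R : ℝ, 0 ≤ R ∧ ∀ Z, κ Z ≠ 0 → ‖Z‖ ≤ R := by
    obtain ⟨R, hR⟩ := hκc.isCompact.isBounded.subset_closedBall 0
    refine ⟨max R 0, le_max_right _ _, fun Z hZ => ?_⟩
    have := hR (subset_tsupport κ hZ)
    rw [mem_closedBall, dist_zero_right] at this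
    exact this.trans (le_max_left _ _)
  set Q : Set (Cm n) := (closedBall y' r ∩ tsupport f) ∩ Nᶜ with hQ
  have hQc : IsCompact Q := ((isCompact_closedBall y' r).inter_right
    (isClosed_tsupport f)).inter_right hNo.isClosed_compl
  have hQG : ∀ y ∈ Q, AnalyticAt ℂ G y := fun y hy => hG y hy.1.1 hy.1.2
  have hQne : ∀ y ∈ Q, 0 < ‖G y - G y'‖ := by
    intro y hy
    rw [norm_pos_iff, sub_ne_zero]
    intro h
    exact hy.2 ⟨hQG y hy, hpsh y hy.1.1 hy.1.2 h⟩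
  obtain ⟨δ, hδ, hδQ⟩ : ∃ δ : ℝ, 0 < δ ∧ ∀ y ∈ Q, δ ≤ ‖G y - G y'‖ := by
    rcases Q.eq_empty_or_nonempty with h | h
    · exact ⟨1, one_pos, fun y hy => absurd hy (by rw [h]; exact Set.notMem_empty y)⟩
    · obtain ⟨y₀, hy₀, hmin⟩ := hQc.exists_isMinOn h (f := fun y => ‖G y - G y'‖)
        (fun y hy => ((hQG y hy).continuousAt.sub continuousAt_const).norm.continuousWithinAt)
      exact ⟨_, hQne y₀ hy₀, fun y hy => hmin hy⟩
  refine ⟨δ / (2 * (R + 1)), by positivity, fun ε hε hεδ y hy hyN => ?_⟩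
  by_cases hys : y ∈ tsupport f
  · have hyQ : y ∈ Q := ⟨⟨hy, hys⟩, hyN⟩
    have h1 : ContinuousAt (fun ζ => ‖G ζ - G y'‖) y :=
      ((hQG y hyQ).continuousAt.sub continuousAt_const).norm
    have h2 : δ / 2 < ‖G y - G y'‖ := by linarith [hδQ y hyQ]
    filter_upwards [h1.eventually (isOpen_Ioi.mem_nhds h2)] with ζ hζ
    have h3 : δ / 2 < ‖G ζ - G y'‖ := hζ
    by_contra hne
    have h4 : κ (ε⁻¹ • (G ζ - G y')) ≠ 0 := fun h0 => hne (by rw [h0, zero_mul])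
    have h5 := hR _ h4
    rw [norm_smul, Real.norm_of_nonneg (by positivity), inv_mul_le_iff₀ hε] at h5
    have h6 : ε * (R + 1) ≤ δ / 2 := by
      rw [lt_div_iff₀ (by positivity)] at hεδ
      linarith
    nlinarith
  · filter_upwards [notMem_tsupport_iff_eventuallyEq.1 hys] with ζ hζ
    rw [hζ]
    simp

end Vale.Agent.P284.H885.D
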